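import Mathlib

/-! Pisot numbers. -/

namespace Vale.Agent.P105

/-- A Pisot number: a real algebraic integer `> 1` all of whose other Galois conjugates (the
other complex roots of its minimal polynomial over `ℚ`) have modulus `< 1`. -/
def IsPisot (b : ℝ) : Prop :=
  IsIntegral ℤ b ∧ 1 < b ∧
    ∀ z : ℂ, Polynomial.aeval z (minpoly ℚ b) = 0 → z ≠ (b : ℂ) → ‖z‖ < 1

end Vale.Agent.P105
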