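import Vale.Agent.P105.Rotation
import Vale.Agent.P105.Pisot

/-! Algebraic facts about `beta`: a quartic algebraic integer that is not a Pisot number. -/

noncomputable section

open Real Polynomial

namespace Vale.Agent.P105

theorem one_lt_beta : 1 < beta := one_lt_beta'

theorem rho_mem_Ioo : 1 / 2 < rho ∧ rho < 1 := by
  have hb := one_lt_beta
  have h2 : √2 < 3 / 2 := (Real.sqrt_lt' (by norm_num)).2 (by norm_num)
  have h1 : 1 < √2 := Real.lt_sqrt_of_sq_lt (by norm_num)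
  have hz : z1 < 5 / 2 := by unfold z1; linarith
  have hb2 : beta < 2 := by
    have := beta_add_inv
    have hbi : beta * beta⁻¹ = 1 := mul_inv_cancel₀ (by linarith)
    nlinarith
  constructor
  · rw [one_div]
    exact inv_strictAnti₀ (by linarith) hb2
  · exact inv_lt_one_of_one_lt₀ hb

theorem beta_sq : beta ^ 2 = z1 * beta - 1 := by
  have hbi : beta * beta⁻¹ = 1 := mul_inv_cancel₀ (by linarith [one_lt_beta])
  linear_combination beta * beta_add_inv - hbi

theorem sqrt_two_sq : √2 ^ 2 = (2 : ℝ) := Real.sq_sqrt (by norm_num)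

theorem beta_quartic : beta ^ 4 - 2 * beta ^ 3 + beta ^ 2 - 2 * beta + 1 = 0 := by
  have h := beta_sq
  have e : (beta ^ 2 - z1 * beta + 1) * (beta ^ 2 - z2 * beta + 1) =
      beta ^ 4 - 2 * beta ^ 3 + beta ^ 2 - 2 * beta + 1 := by
    unfold z1 z2; linear_combination -(beta ^ 2) * sqrt_two_sq
  rw [← e]
  have : beta ^ 2 - z1 * beta + 1 = 0 := by linarith
  rw [this, zero_mul]

theorem isIntegral_beta : IsIntegral ℤ beta := by
  refine ⟨X ^ 4 - 2 * X ^ 3 + X ^ 2 - 2 * X + 1, by monicity!, ?_⟩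
  rw [← Polynomial.aeval_def]
  simpa [map_ofNat] using beta_quartic

theorem rat_sqrt_two {a b : ℚ} (h : (a : ℝ) + b * √2 = 0) : a = 0 ∧ b = 0 := by
  have hb : b = 0 := by
    by_contra hb
    have hbr : (b : ℝ) ≠ 0 := by exact_mod_cast hb
    refine irrational_sqrt_two ⟨-a / b, ?_⟩
    push_cast
    field_simp
    linarith
  subst hb
  simp only [Rat.cast_zero, zero_mul, add_zero] at h
  exact ⟨by exact_mod_cast h, rfl⟩

/-- `1, beta, beta^2, beta^3` are linearly independent over `ℚ`. -/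
theorem beta_indep {a b c d : ℚ}
    (h : (a : ℝ) + b * beta + c * beta ^ 2 + d * beta ^ 3 = 0) :
    a = 0 ∧ b = 0 ∧ c = 0 ∧ d = 0 := by
  have hs := sqrt_two_sq
  have h3 : beta ^ 3 = (z1 ^ 2 - 1) * beta - z1 := by
    linear_combination (beta + z1) * beta_sq
  set A : ℝ := ((a - c - d : ℚ) : ℝ) + ((-d : ℚ) : ℝ) * √2 with hA
  set B : ℝ := ((b + c + 2 * d : ℚ) : ℝ) + ((c + 2 * d : ℚ) : ℝ) * √2 with hB
  have hAB : A + B * beta = 0 := by
    rw [beta_sq, h3] at h
    rw [hA, hB]; unfold z1 at h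
    push_cast
    linear_combination h - (d : ℝ) * beta * hs
  have hdis : (2 * beta - z1) ^ 2 = 2 * √2 - 1 := by
    have := beta_sq
    unfold z1 at this ⊢
    linear_combination 4 * this + hs
  -- compare with the conjugate equation
  set x : ℚ := b + c + 2 * d with hx
  set y : ℚ := c + 2 * d with hy
  set P : ℚ := 2 * (a - c - d) + (x + 2 * y) with hP
  set Q : ℚ := 2 * (-d) + (x + y) with hQ
  have hPQ : (P : ℝ) + Q * √2 = 2 * A + B * z1 := by
    rw [hA, hB, hP, hQ]; unfold z1; push_cast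
    linear_combination -(y : ℝ) * hs
  have hsq : B ^ 2 * (2 * √2 - 1) = ((P : ℝ) + Q * √2) ^ 2 := by
    rw [← hdis, hPQ]
    linear_combination (2 * (2 * B * beta - 2 * B * z1 - 2 * A)) * hAB
  have hcoef : ((-x ^ 2 - 2 * y ^ 2 + 8 * x * y - (P ^ 2 + 2 * Q ^ 2) : ℚ) : ℝ) +
      ((2 * x ^ 2 + 4 * y ^ 2 - 2 * x * y - 2 * P * Q : ℚ) : ℝ) * √2 = 0 := by
    rw [hB] at hsq
    push_cast at hsq ⊢
    linear_combination hsq + ((Q : ℝ) ^ 2 + (y : ℝ) ^ 2 - 4 * (x : ℝ) * y - 2 * (y : ℝ) ^ 2 * √2) * hs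
  obtain ⟨e1, e2⟩ := rat_sqrt_two hcoef
  have hconj : ((x : ℝ) - y * √2) ^ 2 * (-2 * √2 - 1) = ((P : ℝ) - Q * √2) ^ 2 := by
    have e1' : (((-x ^ 2 - 2 * y ^ 2 + 8 * x * y - (P ^ 2 + 2 * Q ^ 2) : ℚ)) : ℝ) = 0 := by
      rw [e1]; simp
    have e2' : (((2 * x ^ 2 + 4 * y ^ 2 - 2 * x * y - 2 * P * Q : ℚ)) : ℝ) = 0 := by
      rw [e2]; simp
    push_cast at e1' e2'
    linear_combination e1' - √2 * e2' +
      (-(Q : ℝ) ^ 2 - (y : ℝ) ^ 2 + 4 * (x : ℝ) * y - 2 * (y : ℝ) ^ 2 * √2) * hs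
  have hxy : (x : ℝ) - y * √2 = 0 := by
    by_contra hne
    have h0 : 0 < ((x : ℝ) - y * √2) ^ 2 := by positivity
    nlinarith [sq_nonneg ((P : ℝ) - Q * √2), Real.sqrt_nonneg (2 : ℝ)]
  obtain ⟨hx0, hy0⟩ := rat_sqrt_two (a := x) (b := -y) (by push_cast; linarith)
  have hy0' : y = 0 := neg_eq_zero.1 hy0
  have hB0 : B = 0 := by rw [hB, hx0, hy0']; simp
  have hA0 : A = 0 := by rw [hB0, zero_mul, add_zero] at hAB; exact hAB
  obtain ⟨ha, hd⟩ := rat_sqrt_two hA0
  refine ⟨?_, ?_, ?_, ?_⟩ <;> linarith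

theorem not_isPisot_beta : ¬ IsPisot beta := by
  rintro ⟨-, -, h⟩
  set q : ℚ[X] := X ^ 4 - 2 * X ^ 3 + X ^ 2 - 2 * X + 1 with hq
  have hmon : q.Monic := by rw [hq]; monicity!
  have hdeg : q.natDegree = 4 := by rw [hq]; compute_degree!
  have hqb : aeval beta q = 0 := by simpa [hq, map_ofNat] using beta_quartic
  set m := minpoly ℚ beta
  have hm : aeval beta m = 0 := minpoly.aeval ℚ beta
  have hR : aeval beta (m %ₘ q) = 0 := by
    rw [aeval_modByMonic_eq_self_of_root hqb, hm]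
  have hRdeg : (m %ₘ q).natDegree < 4 := by
    rw [← hdeg]
    exact natDegree_modByMonic_lt m hmon (fun h1 => by rw [h1] at hdeg; simp at hdeg)
  have hR0 : m %ₘ q = 0 := by
    rw [aeval_eq_sum_range' hRdeg] at hR
    simp only [Finset.sum_range_succ, Finset.sum_range_zero, zero_add, pow_zero, pow_one,
      Algebra.smul_def, eq_ratCast, mul_one] at hR
    obtain ⟨h0, h1, h2, h3⟩ := beta_indep hR
    ext i
    rcases lt_or_ge i 4 with hi | hi
    · interval_cases i <;> simp [h0, h1, h2, h3]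
    · simp [coeff_eq_zero_of_natDegree_lt (lt_of_lt_of_le hRdeg hi)]
  obtain ⟨r, hr⟩ := (modByMonic_eq_zero_iff_dvd hmon).1 hR0
  set u : ℂ := ⟨Real.cos om, Real.sin om⟩ with hu
  have hu2 : u ^ 2 - (z2 : ℂ) * u + 1 = 0 := by
    have hsc := Real.sin_sq_add_cos_sq om
    rw [← two_cos_om, hu]
    generalize Real.cos om = cc at hsc ⊢
    generalize Real.sin om = ss at hsc ⊢
    apply Complex.ext <;> simp [sq]
    · linear_combination -hsc
    · ring
  have hqu : aeval u q = 0 := by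
    have e : aeval u q = (u ^ 2 - (z1 : ℂ) * u + 1) * (u ^ 2 - (z2 : ℂ) * u + 1) := by
      have hs : ((√2 : ℝ) : ℂ) ^ 2 = 2 := by exact_mod_cast sqrt_two_sq
      simp [hq, map_ofNat]
      unfold z1 z2
      push_cast
      linear_combination (u ^ 2) * hs
    rw [e, hu2, mul_zero]
  have hnorm : ‖u‖ = 1 := by
    rw [Complex.norm_def, hu, Complex.normSq_mk]
    have : Real.cos om * Real.cos om + Real.sin om * Real.sin om = 1 := by
      linear_combination Real.sin_sq_add_cos_sq om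
    rw [this, Real.sqrt_one]
  have hne : u ≠ (beta : ℂ) := by
    intro he
    rw [he, Complex.norm_real, Real.norm_eq_abs, abs_of_pos (by linarith [one_lt_beta])] at hnorm
    linarith [one_lt_beta]
  have := h u (by rw [hr, map_mul, hqu, zero_mul]) hne
  linarith

end Vale.Agent.P105
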