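/-
P105 (helper9): Bernoulli convolutions: the infinite product formula, self-similarity,
pure type, and a second moment test for singularity.
-/
import Mathlib

namespace Vale.Agent.P105

open MeasureTheory Filter Topology Complex
open scoped ENNReal

/-- The law of a sequence of independent fair coins. -/
noncomputable def coin : Measure (ℕ → Bool) :=
  Measure.infinitePi fun _ => (PMF.uniformOfFintype Bool).toMeasure

/-- The sign of a coin. -/
def sgn (b : Bool) : ℝ := if b then 1 else -1

/-- The random series `∑ k, ± l ^ k`. -/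
noncomputable def series (l : ℝ) (ω : ℕ → Bool) : ℝ := ∑' k, sgn (ω k) * l ^ k

/-- The Bernoulli convolution with parameter `l`. -/
noncomputable def bconv (l : ℝ) : Measure ℝ := coin.map (series l)

instance : IsProbabilityMeasure coin := by unfold coin; infer_instance

variable {l : ℝ}

lemma abs_sgn (b : Bool) : |sgn b| = 1 := by cases b <;> simp [sgn]

lemma sgn_sq (b : Bool) : sgn b ^ 2 = 1 := by cases b <;> simp [sgn]

lemma summable_series (h0 : 0 ≤ l) (h1 : l < 1) (ω : ℕ → Bool) :
    Summable fun k => sgn (ω k) * l ^ k := by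
  refine (summable_geometric_of_lt_one h0 h1).of_norm_bounded fun k => ?_
  rw [Real.norm_eq_abs, abs_mul, abs_sgn, one_mul, abs_of_nonneg (pow_nonneg h0 k)]

lemma continuous_series (h0 : 0 ≤ l) (h1 : l < 1) : Continuous (series l) := by
  refine continuous_tsum (fun k => ?_) (summable_geometric_of_lt_one h0 h1) fun k ω => ?_
  · exact ((continuous_of_discreteTopology (f := sgn)).comp (continuous_apply k)).mul
      continuous_const
  · rw [Real.norm_eq_abs, abs_mul, abs_sgn, one_mul, abs_of_nonneg (pow_nonneg h0 k)]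

lemma measurable_series (h0 : 0 ≤ l) (h1 : l < 1) : Measurable (series l) :=
  (continuous_series h0 h1).measurable

lemma abs_series_le (h0 : 0 ≤ l) (h1 : l < 1) (ω : ℕ → Bool) :
    |series l ω| ≤ 1 / (1 - l) := by
  have key : ‖∑' k, sgn (ω k) * l ^ k‖ ≤ (1 - l)⁻¹ := by
    refine tsum_of_norm_bounded (f := fun k => sgn (ω k) * l ^ k) (g := fun k => l ^ k)
      (hasSum_geometric_of_lt_one h0 h1) fun k => ?_
    simp only [Real.norm_eq_abs, abs_mul, abs_sgn, abs_pow, abs_of_nonneg h0, one_mul, le_refl]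
  rw [one_div]
  rw [Real.norm_eq_abs] at key
  exact key

lemma isProbability_bconv (h0 : 0 ≤ l) (h1 : l < 1) : IsProbabilityMeasure (bconv l) :=
  Measure.isProbabilityMeasure_map (measurable_series h0 h1).aemeasurable

/-- The convolution lives on `[-1 / (1 - l), 1 / (1 - l)]`. -/
lemma bconv_support (h0 : 0 ≤ l) (h1 : l < 1) :
    bconv l (Set.Icc (-(1 / (1 - l))) (1 / (1 - l)))ᶜ = 0 := by
  rw [bconv, Measure.map_apply (measurable_series h0 h1) measurableSet_Icc.compl]
  convert measure_empty (μ := coin)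
  refine Set.eq_empty_iff_forall_notMem.mpr fun ω hω => hω ?_
  exact abs_le.mp (abs_series_le h0 h1 ω)

lemma integral_coin (f : Bool → ℂ) :
    ∫ b, f b ∂(PMF.uniformOfFintype Bool).toMeasure = (f true + f false) / 2 := by
  rw [PMF.integral_eq_sum]
  simp [PMF.uniformOfFintype_apply]
  ring

/-- The partial sums have the cosine product as characteristic function. -/
lemma integral_cexp_partial (t : ℝ) (n : ℕ) :
    ∫ ω, cexp ((t : ℂ) * ((∑ k ∈ Finset.range n, sgn (ω k) * l ^ k : ℝ) : ℂ) * I) ∂coin =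
      ((∏ k ∈ Finset.range n, Real.cos (t * l ^ k) : ℝ) : ℂ) := by
  set g : (i : Finset.range n) → Bool → ℂ :=
    fun i b => cexp ((t : ℂ) * ((sgn b * l ^ (i : ℕ) : ℝ) : ℂ) * I)
  have e : ∀ ω : ℕ → Bool,
      cexp ((t : ℂ) * ((∑ k ∈ Finset.range n, sgn (ω k) * l ^ k : ℝ) : ℂ) * I) =
        ∏ i, g i ((Finset.range n).restrict ω i) := by
    intro ω
    rw [← Complex.exp_sum]
    congr 1
    rw [← Finset.sum_coe_sort (Finset.range n)]
    push_cast
    rw [Finset.mul_sum, Finset.sum_mul]
    rfl
  simp_rw [e]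
  refine (integral_restrict_infinitePi (μ := fun _ : ℕ => (PMF.uniformOfFintype Bool).toMeasure)
    (s := Finset.range n) (f := fun y => ∏ i, g i (y i))
    ((measurable_of_countable _).aestronglyMeasurable)).trans ?_
  rw [integral_fintype_prod_eq_prod]
  push_cast
  rw [← Finset.prod_coe_sort (Finset.range n)]
  refine Finset.prod_congr rfl fun i _ => ?_
  rw [integral_coin, Complex.cos]
  simp only [g, sgn, if_true, Bool.false_eq_true, if_false]
  push_cast
  ring_nf

/-- The infinite product formula. -/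
theorem charFun_bconv_tendsto (h0 : 0 ≤ l) (h1 : l < 1) (t : ℝ) :
    Tendsto (fun n => ((∏ k ∈ Finset.range n, Real.cos (t * l ^ k) : ℝ) : ℂ)) atTop
      (𝓝 (charFun (bconv l) t)) := by
  rw [charFun_apply_real, bconv, integral_map (measurable_series h0 h1).aemeasurable
    (by fun_prop)]
  simp_rw [← integral_cexp_partial (l := l) t]
  refine tendsto_integral_of_dominated_convergence (fun _ => 1) (fun n => ?_)
    (integrable_const _) (fun n => ?_) (ae_of_all _ fun ω => ?_)
  · refine (Measurable.aestronglyMeasurable ?_)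
    have : Measurable fun ω : ℕ → Bool => ∑ k ∈ Finset.range n, sgn (ω k) * l ^ k :=
      Finset.measurable_sum _ fun k _ =>
        ((measurable_of_countable sgn).comp (measurable_pi_apply k)).mul_const _
    fun_prop
  · refine ae_of_all _ fun ω => le_of_eq ?_
    rw [← ofReal_mul, Complex.norm_exp_ofReal_mul_I]
  · have h := (summable_series h0 h1 ω).hasSum.tendsto_sum_nat
    have hc : Continuous fun x : ℝ => cexp ((t : ℂ) * (x : ℂ) * I) := by fun_prop
    exact (hc.tendsto _).comp h

/-- One step of the product. -/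
theorem charFun_bconv_step (h0 : 0 ≤ l) (h1 : l < 1) (t : ℝ) :
    charFun (bconv l) t = (Real.cos t : ℂ) * charFun (bconv l) (t * l) := by
  refine tendsto_nhds_unique ((charFun_bconv_tendsto h0 h1 t).comp (tendsto_add_atTop_nat 1)) ?_
  refine ((charFun_bconv_tendsto h0 h1 (t * l)).const_mul (Real.cos t : ℂ)).congr fun n => ?_
  simp only [Function.comp]
  rw [← ofReal_mul, Finset.prod_range_succ']
  norm_cast
  rw [pow_zero, mul_one, mul_comm]
  congr 1
  exact Finset.prod_congr rfl fun k _ => by rw [pow_succ']; ring_nf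

/-- The product split after `n` factors. -/
theorem charFun_bconv_split (h0 : 0 ≤ l) (h1 : l < 1) (t : ℝ) (n : ℕ) :
    charFun (bconv l) t =
      ((∏ k ∈ Finset.range n, Real.cos (t * l ^ k) : ℝ) : ℂ) *
        charFun (bconv l) (t * l ^ n) := by
  induction n with
  | zero => simp
  | succ n ih =>
    rw [ih, charFun_bconv_step h0 h1 (t * l ^ n), Finset.prod_range_succ, pow_succ, mul_assoc t]
    push_cast
    ring

/-- The characteristic function is the real number `∫ cos (t x)`. -/
theorem charFun_bconv_im (h0 : 0 ≤ l) (h1 : l < 1) (t : ℝ) :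
    (charFun (bconv l) t).im = 0 :=
  tendsto_nhds_unique (((Complex.continuous_im.tendsto _).comp (charFun_bconv_tendsto h0 h1 t)))
    (tendsto_const_nhds.congr fun _ => (ofReal_im _).symm)

theorem integral_cos_bconv (h0 : 0 ≤ l) (h1 : l < 1) (t : ℝ) :
    ∫ x, Real.cos (t * x) ∂bconv l = (charFun (bconv l) t).re := by
  have := isProbability_bconv h0 h1
  have hi : Integrable (fun x : ℝ => cexp ((t : ℂ) * x * I)) (bconv l) := by
    refine Integrable.mono' (integrable_const (1 : ℝ)) (by fun_prop) (ae_of_all _ fun x => ?_)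
    rw [← ofReal_mul, Complex.norm_exp_ofReal_mul_I]
  rw [charFun_apply_real]
  have h := integral_re hi
  simp only [RCLike.re_to_complex] at h
  rw [← h]
  congr 1
  funext x
  rw [← ofReal_mul, Complex.exp_ofReal_mul_I_re]

theorem integral_sin_bconv (h0 : 0 ≤ l) (h1 : l < 1) (t : ℝ) :
    ∫ x, Real.sin (t * x) ∂bconv l = 0 := by
  have := isProbability_bconv h0 h1
  have hi : Integrable (fun x : ℝ => cexp ((t : ℂ) * x * I)) (bconv l) := by
    refine Integrable.mono' (integrable_const (1 : ℝ)) (by fun_prop) (ae_of_all _ fun x => ?_)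
    rw [← ofReal_mul, Complex.norm_exp_ofReal_mul_I]
  have h := integral_im hi
  simp only [RCLike.im_to_complex] at h
  rw [← charFun_bconv_im h0 h1 t, charFun_apply_real, ← h]
  congr 1
  funext x
  rw [← ofReal_mul, Complex.exp_ofReal_mul_I_im]

theorem tendsto_prod_cos (h0 : 0 ≤ l) (h1 : l < 1) (t : ℝ) :
    Tendsto (fun n => ∏ k ∈ Finset.range n, Real.cos (t * l ^ k)) atTop
      (𝓝 (∫ x, Real.cos (t * x) ∂bconv l)) := by
  rw [integral_cos_bconv h0 h1]
  exact ((Complex.continuous_re.tendsto _).comp (charFun_bconv_tendsto h0 h1 t)).congr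
    fun n => ofReal_re _

/-! ### Pure type -/

/-- The mixture of the two contracted copies of a measure. -/
noncomputable def refine1 (l : ℝ) (μ : Measure ℝ) : Measure ℝ :=
  (2⁻¹ : ℝ≥0∞) • μ.map (fun x => 1 + l * x) + (2⁻¹ : ℝ≥0∞) • μ.map (fun x => -1 + l * x)

lemma charFun_affine (μ : Measure ℝ) (s l t : ℝ) :
    charFun (μ.map fun x => s + l * x) t = cexp (((t * s : ℝ) : ℂ) * I) * charFun μ (t * l) := by
  rw [charFun_apply_real, charFun_apply_real, integral_map (by fun_prop) (by fun_prop),
    ← integral_const_mul]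
  congr 1
  funext x
  rw [← Complex.exp_add]
  push_cast
  ring_nf

lemma charFun_refine1 (μ : Measure ℝ) [IsFiniteMeasure μ] (l t : ℝ) :
    charFun (refine1 l μ) t = (Real.cos t : ℂ) * charFun μ (t * l) := by
  have hi : ∀ (ν : Measure ℝ), IsFiniteMeasure ν →
      Integrable (fun x : ℝ => cexp ((t : ℂ) * x * I)) ν := fun ν _ => by
    refine Integrable.mono' (integrable_const (1 : ℝ)) (by fun_prop) (ae_of_all _ fun x => ?_)
    rw [← ofReal_mul, Complex.norm_exp_ofReal_mul_I]
  have p : ∀ s : ℝ, IsFiniteMeasure ((2⁻¹ : ℝ≥0∞) • μ.map fun x => s + l * x) := fun s =>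
    Measure.smul_finite _ (by simp)
  rw [refine1, charFun_apply_real, integral_add_measure (hi _ (p 1)) (hi _ (p (-1))),
    integral_smul_measure, integral_smul_measure, ← charFun_apply_real, ← charFun_apply_real,
    charFun_affine, charFun_affine, Complex.ofReal_cos, Complex.cos]
  simp only [ENNReal.toReal_inv, ENNReal.toReal_ofNat, Complex.real_smul]
  push_cast
  ring_nf

/-- A probability measure equal to its refinement is the Bernoulli convolution. -/
theorem eq_bconv_of_refine1 (h0 : 0 ≤ l) (h1 : l < 1) {μ : Measure ℝ} [IsProbabilityMeasure μ]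
    (h : refine1 l μ = μ) : μ = bconv l := by
  have := isProbability_bconv h0 h1
  refine Measure.ext_of_charFun (funext fun t => ?_)
  have split : ∀ n, charFun μ t =
      ((∏ k ∈ Finset.range n, Real.cos (t * l ^ k) : ℝ) : ℂ) * charFun μ (t * l ^ n) := by
    intro n
    induction n with
    | zero => simp
    | succ n ih =>
      have e := charFun_refine1 μ l (t * l ^ n)
      rw [h] at e
      rw [ih, e, Finset.prod_range_succ, pow_succ, mul_assoc t]
      push_cast
      ring
  have hlim : Tendsto (fun n => charFun μ (t * l ^ n)) atTop (𝓝 1) := by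
    have h0' : Tendsto (fun n => t * l ^ n) atTop (𝓝 0) := by
      simpa using (tendsto_pow_atTop_nhds_zero_of_lt_one h0 h1).const_mul t
    have := (continuous_charFun (μ := μ)).tendsto 0
    simpa [Function.comp_def] using this.comp h0'
  have := (charFun_bconv_tendsto h0 h1 t).mul hlim
  rw [mul_one] at this
  exact tendsto_nhds_unique (tendsto_const_nhds.congr split) this

theorem refine1_bconv (h0 : 0 ≤ l) (h1 : l < 1) : refine1 l (bconv l) = bconv l := by
  have := isProbability_bconv h0 h1
  have p : ∀ s : ℝ, IsFiniteMeasure ((2⁻¹ : ℝ≥0∞) • (bconv l).map fun x => s + l * x) :=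
    fun s => Measure.smul_finite _ (by simp)
  have : IsFiniteMeasure (refine1 l (bconv l)) := by
    unfold refine1; have := p 1; have := p (-1); infer_instance
  refine Measure.ext_of_charFun (funext fun t => ?_)
  rw [charFun_refine1, ← charFun_bconv_step h0 h1]

/-- All affine images of `Z` that the two contractions and their inverses generate. -/
def orbit (l : ℝ) (Z : Set ℝ) : Set ℝ :=
  ⋃ (k : ℤ) (p : ℤ →₀ ℤ), {x | l ^ k * x + (p.sum fun j c => (c : ℝ) * l ^ j) ∈ Z}

lemma orbit_invariant (h0 : 0 < l) (Z : Set ℝ) (s : ℤ) (x : ℝ) :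
    (s : ℝ) + l * x ∈ orbit l Z ↔ x ∈ orbit l Z := by
  have sum_add : ∀ (p : ℤ →₀ ℤ) (j c : ℤ),
      ((p + Finsupp.single j c).sum fun j c => (c : ℝ) * l ^ j) =
        (p.sum fun j c => (c : ℝ) * l ^ j) + (c : ℝ) * l ^ j := by
    intro p j c
    rw [Finsupp.sum_add_index' (by simp) (by intros; push_cast; ring),
      Finsupp.sum_single_index (by simp)]
  simp only [orbit, Set.mem_iUnion, Set.mem_ofPred_eq]
  constructor
  · rintro ⟨k, p, h⟩
    refine ⟨k + 1, p + Finsupp.single k s, ?_⟩
    rw [sum_add, zpow_add_one₀ h0.ne']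
    convert h using 1
    ring
  · rintro ⟨k, p, h⟩
    refine ⟨k - 1, p + Finsupp.single (k - 1) (-s), ?_⟩
    rw [sum_add, zpow_sub_one₀ h0.ne']
    convert h using 1
    push_cast
    field_simp
    ring

lemma orbit_null (h0 : 0 < l) {Z : Set ℝ} (hZ : volume Z = 0) : volume (orbit l Z) = 0 := by
  refine measure_iUnion_null fun k => measure_iUnion_null fun p => ?_
  have hk : l ^ k ≠ 0 := (zpow_pos h0 k).ne'
  show volume ((fun x => l ^ k * x) ⁻¹' ((fun x => x + (p.sum fun j c => (c : ℝ) * l ^ j)) ⁻¹' Z))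
    = 0
  rw [Real.volume_preimage_mul_left hk, measure_preimage_add_right, hZ, mul_zero]

/-- Pure type (Jessen and Wintner): not absolutely continuous means singular. -/
theorem mutuallySingular_of_not_ac (h0 : 0 < l) (h1 : l < 1)
    (h : ¬ bconv l ≪ volume) : bconv l ⟂ₘ volume := by
  classical
  have := isProbability_bconv h0.le h1
  obtain ⟨Z, hZm, hZ0, hZpos⟩ : ∃ Z, MeasurableSet Z ∧ volume Z = 0 ∧ bconv l Z ≠ 0 := by
    by_contra hne
    push Not at hne
    exact h (Measure.AbsolutelyContinuous.mk fun Z hm h0' => hne Z hm h0')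
  set W := orbit l Z with hW
  have hWm : MeasurableSet W := by
    refine MeasurableSet.iUnion fun k => MeasurableSet.iUnion fun p => ?_
    exact (by fun_prop : Measurable fun x : ℝ =>
      l ^ k * x + (p.sum fun j c => (c : ℝ) * l ^ j)) hZm
  have hZW : Z ⊆ W := fun x hx => Set.mem_iUnion₂.mpr ⟨0, 0, by simpa using hx⟩
  set c := bconv l W with hc
  have hc0 : c ≠ 0 := fun e => hZpos (measure_mono_null hZW e)
  set μ : Measure ℝ := c⁻¹ • (bconv l).restrict W with hμ
  have : IsProbabilityMeasure μ := ⟨by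
    simp [hμ, ← hc, ENNReal.inv_mul_cancel hc0 (measure_ne_top _ _)]⟩
  have hinv : refine1 l μ = μ := by
    have step : ∀ s : ℤ, ((bconv l).restrict W).map (fun x => (s : ℝ) + l * x) =
        ((bconv l).map (fun x => (s : ℝ) + l * x)).restrict W := by
      intro s
      rw [Measure.restrict_map (by fun_prop) hWm]
      congr 2
      ext x
      exact (orbit_invariant h0 Z s x).symm
    have e1 := step 1
    have e2 := step (-1)
    push_cast at e1 e2
    conv_rhs => rw [hμ, ← refine1_bconv h0.le h1, refine1, Measure.restrict_add,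
      Measure.restrict_smul, Measure.restrict_smul, ← e1, ← e2]
    rw [refine1, hμ, Measure.map_smul, Measure.map_smul, smul_add, smul_comm c⁻¹, smul_comm c⁻¹]
  have key := eq_bconv_of_refine1 h0.le h1 hinv
  refine ⟨Wᶜ, hWm.compl, ?_, by rw [compl_compl]; exact orbit_null h0 hZ0⟩
  rw [← key]
  simp [hμ, Measure.restrict_apply hWm.compl]

/-! ### The second moment test -/

/-- Functions with mean bounded below and bounded second moment for `ν`, but whose second
moment for Lebesgue measure on the support tends to zero, exclude absolute continuity. -/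
theorem not_ac_of_second_moment {ν : Measure ℝ} [IsFiniteMeasure ν] {S : Set ℝ}
    (hSm : MeasurableSet S) (hS : ν Sᶜ = 0) (Z : ℕ → ℝ → ℝ) {a C : ℝ} (ha : 0 < a)
    (hZ : ∀ j, Measurable (Z j)) (h2 : ∀ j, Integrable (fun x => Z j x ^ 2) ν)
    (h2v : ∀ j, IntegrableOn (fun x => Z j x ^ 2) S)
    (hmean : ∀ᶠ j in atTop, a ≤ ∫ x, Z j x ∂ν)
    (hsq : ∀ᶠ j in atTop, ∫ x, Z j x ^ 2 ∂ν ≤ C)
    (hzero : Tendsto (fun j => ∫ x in S, Z j x ^ 2) atTop (𝓝 0)) :
    ¬ ν ≪ volume := by
  intro hac
  set f : ℝ → ℝ := fun x => (ν.rnDeriv volume x).toReal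
  have fm : Measurable f := (Measure.measurable_rnDeriv _ _).ennreal_toReal
  have f0 : ∀ x, 0 ≤ f x := fun x => ENNReal.toReal_nonneg
  set B : ℕ → Set ℝ := fun M => {x | (M : ℝ) < f x}
  have Bm : ∀ M, MeasurableSet (B M) := fun M => measurableSet_lt measurable_const fm
  have hB : Tendsto (fun M => ν.real (B M)) atTop (𝓝 0) := by
    have : Tendsto (fun M => ν (B M)) atTop (𝓝 (ν (⋂ M, B M))) := by
      refine tendsto_measure_iInter_atTop (fun M => (Bm M).nullMeasurableSet) (fun i j hij x hx => ?_)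
        ⟨0, measure_ne_top _ _⟩
      exact lt_of_le_of_lt (Nat.cast_le.mpr hij) (Set.mem_ofPred_eq ▸ hx)
    rw [show (⋂ M, B M) = ∅ from Set.eq_empty_iff_forall_notMem.mpr fun x hx =>
      not_lt.mpr (Nat.le_ceil (f x)) (Set.mem_iInter.mp hx ⌈f x⌉₊), measure_empty] at this
    exact (ENNReal.tendsto_toReal ENNReal.zero_ne_top).comp this
  set D : ℝ := max C 1
  have hD : 0 < D := lt_max_of_lt_right one_pos
  set δ := a / (4 * D) with hδ
  have hδ0 : 0 < δ := by positivity
  set η := a / (8 * (ν.real Set.univ + 1)) with hη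
  have hη0 : 0 < η := by positivity
  obtain ⟨M, hM⟩ := (hB.eventually_lt_const (u := δ * a / 4) (by positivity)).exists
  have hz' : Tendsto (fun j => (M : ℝ) / (4 * η) * ∫ x in S, Z j x ^ 2) atTop (𝓝 0) := by
    simpa using hzero.const_mul ((M : ℝ) / (4 * η))
  obtain ⟨j, hj1, hj2, hj3⟩ :=
    (hmean.and (hsq.and (hz'.eventually_lt_const (u := a / 8) (by positivity)))).exists
  -- split at the level `M` of the density
  have hpt : ∀ x, Z j x ≤ δ / 2 * Z j x ^ 2 + (1 / (2 * δ)) * (B M).indicator 1 x +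
      (η + 1 / (4 * η) * (S ∩ (B M)ᶜ).indicator (fun x => Z j x ^ 2) x) +
      Sᶜ.indicator (fun x => |Z j x|) x := by
    intro x
    have e1 : Z j x ≤ δ / 2 * Z j x ^ 2 + 1 / (2 * δ) := by
      have e : δ / 2 * Z j x ^ 2 + 1 / (2 * δ) - Z j x = (δ * Z j x - 1) ^ 2 / (2 * δ) := by
        field_simp; ring
      nlinarith [div_nonneg (sq_nonneg (δ * Z j x - 1)) (by positivity : (0 : ℝ) ≤ 2 * δ)]
    have e2 : Z j x ≤ η + 1 / (4 * η) * Z j x ^ 2 := by
      have e : η + 1 / (4 * η) * Z j x ^ 2 - Z j x = (Z j x - 2 * η) ^ 2 / (4 * η) := by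
        field_simp; ring
      nlinarith [div_nonneg (sq_nonneg (Z j x - 2 * η)) (by positivity : (0 : ℝ) ≤ 4 * η)]
    have n1 : 0 ≤ δ / 2 * Z j x ^ 2 := by positivity
    have n3 : 0 ≤ 1 / (4 * η) * Z j x ^ 2 := by positivity
    have n4 := abs_nonneg (Z j x)
    have n5 := le_abs_self (Z j x)
    have n6 : 0 < 1 / (2 * δ) := by positivity
    by_cases hx : x ∈ B M <;> by_cases hx' : x ∈ S <;> simp [hx, hx'] <;>
      simp only [one_div, mul_inv_rev] at * <;> linarith
  have hzS : Sᶜ.indicator (fun x => |Z j x|) =ᵐ[ν] 0 := by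
    have : ∀ᵐ x ∂ν, x ∈ S := by rw [ae_iff]; exact hS
    filter_upwards [this] with x hx
    simp [hx]
  have iI : Integrable ((B M).indicator (1 : ℝ → ℝ)) ν :=
    (integrable_const (1 : ℝ)).indicator (Bm M)
  have iS : Integrable ((S ∩ (B M)ᶜ).indicator fun x => Z j x ^ 2) ν :=
    (h2 j).indicator (hSm.inter (Bm M).compl)
  have iA : Integrable (Sᶜ.indicator fun x => |Z j x|) ν := (integrable_congr hzS).mpr (integrable_zero _ _ _)
  have i0 : Integrable (fun x => δ / 2 * Z j x ^ 2 + 1 / (2 * δ) * (B M).indicator 1 x) ν :=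
    ((h2 j).const_mul _).add (iI.const_mul _)
  have i1 : Integrable (fun x => η + 1 / (4 * η) * (S ∩ (B M)ᶜ).indicator (fun x => Z j x ^ 2) x) ν :=
    (integrable_const η).add (iS.const_mul _)
  have hZi : Integrable (Z j) ν := by
    refine Integrable.mono' ((h2 j).add (integrable_const (1 : ℝ))) (hZ j).aestronglyMeasurable
      (ae_of_all _ fun x => ?_)
    rw [Real.norm_eq_abs]
    simp only [Pi.add_apply]
    nlinarith [sq_abs (Z j x), sq_nonneg (|Z j x| - 1)]
  have hint := integral_mono hZi ((i0.add i1).add iA) hpt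
  rw [integral_add' (i0.add i1) iA, integral_add' i0 i1, integral_eq_zero_of_ae hzS,
    integral_add ((h2 j).const_mul _) (iI.const_mul _),
    integral_add (integrable_const η) (iS.const_mul _), integral_const, integral_const_mul,
    integral_const_mul, integral_const_mul, integral_indicator_one (Bm M),
    integral_indicator (hSm.inter (Bm M).compl)] at hint
  have hsmall : ∫ x in S ∩ (B M)ᶜ, Z j x ^ 2 ∂ν ≤ (M : ℝ) * ∫ x in S, Z j x ^ 2 := by
    rw [← setIntegral_rnDeriv_smul hac (hSm.inter (Bm M).compl)]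
    calc ∫ x in S ∩ (B M)ᶜ, f x • Z j x ^ 2
        ≤ ∫ x in S ∩ (B M)ᶜ, (M : ℝ) * Z j x ^ 2 := by
          refine integral_mono_of_nonneg (ae_of_all _ fun x => mul_nonneg (f0 x) (sq_nonneg _))
            (((h2v j).mono_set Set.inter_subset_left).const_mul _) ?_
          filter_upwards [ae_restrict_mem (hSm.inter (Bm M).compl)] with x hx
          exact mul_le_mul_of_nonneg_right (not_lt.mp hx.2) (sq_nonneg _)
      _ ≤ (M : ℝ) * ∫ x in S, Z j x ^ 2 := by
          rw [integral_const_mul]
          exact mul_le_mul_of_nonneg_left (setIntegral_mono_set (h2v j)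
            (ae_of_all _ fun x => sq_nonneg _) Set.inter_subset_left.eventuallyLE) (Nat.cast_nonneg M)
  have t1 : δ / 2 * ∫ x, Z j x ^ 2 ∂ν ≤ a / 8 := by
    refine le_trans (mul_le_mul_of_nonneg_left (hj2.trans (le_max_left C 1)) (by positivity)) ?_
    rw [hδ]; field_simp; linarith
  have t2 : 1 / (2 * δ) * ν.real (B M) ≤ a / 8 := by
    rw [one_div, inv_mul_eq_div, div_le_iff₀ (by positivity)]
    linarith
  have t3 : 1 / (4 * η) * ∫ x in S ∩ (B M)ᶜ, Z j x ^ 2 ∂ν < a / 8 := by
    refine lt_of_le_of_lt (mul_le_mul_of_nonneg_left hsmall (by positivity)) ?_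
    rw [← mul_assoc, one_div_mul_eq_div]; exact hj3
  have t4 : ν.real Set.univ * η ≤ a / 8 := by
    have : (0 : ℝ) ≤ ν.real Set.univ := measureReal_nonneg
    rw [hη, mul_div_assoc', div_le_div_iff₀ (by positivity) (by norm_num)]
    nlinarith
  simp only [smul_eq_mul] at hint
  linarith

/-- The test in the form used for Bernoulli convolutions. -/
theorem singular_of_second_moment (h0 : 0 < l) (h1 : l < 1) (Z : ℕ → ℝ → ℝ) {a C : ℝ}
    (ha : 0 < a) (hZ : ∀ j, Continuous (Z j))
    (hmean : ∀ᶠ j in atTop, a ≤ ∫ x, Z j x ∂bconv l)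
    (hsq : ∀ᶠ j in atTop, ∫ x, Z j x ^ 2 ∂bconv l ≤ C)
    (hzero : Tendsto (fun j => ∫ x in Set.Icc (-(1 / (1 - l))) (1 / (1 - l)), Z j x ^ 2)
      atTop (𝓝 0)) :
    bconv l ⟂ₘ volume := by
  have := isProbability_bconv h0.le h1
  refine mutuallySingular_of_not_ac h0 h1
    (not_ac_of_second_moment measurableSet_Icc (bconv_support h0.le h1) Z ha
      (fun j => (hZ j).measurable) (fun j => ?_)
      (fun j => ((hZ j).pow 2).continuousOn.integrableOn_compact isCompact_Icc) hmean hsq hzero)
  have hI : ∀ᵐ x ∂bconv l, x ∈ Set.Icc (-(1 / (1 - l))) (1 / (1 - l)) := by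
    rw [ae_iff]; exact bconv_support h0.le h1
  rw [← Measure.restrict_eq_self_of_ae_mem hI]
  exact ((hZ j).pow 2).continuousOn.integrableOn_compact isCompact_Icc

/-- Singular measures give full mass to a Borel null set. -/
theorem full_null_set (h0 : 0 < l) (h1 : l < 1) (h : bconv l ⟂ₘ volume) :
    ∃ N : Set ℝ, MeasurableSet N ∧ volume N = 0 ∧ bconv l N = 1 := by
  have := isProbability_bconv h0.le h1
  obtain ⟨S, hS, h2, h3⟩ := h
  exact ⟨Sᶜ, hS.compl, h3, (prob_compl_eq_one_iff hS).mpr h2⟩

end Vale.Agent.P105
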