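import Vale.Agent.P105.Rotation

/-! The explicit starting gadget. -/

noncomputable section

open Real Finset

namespace Vale.Agent.P105

namespace BaseAux

def s0 : ℝ := -6 - 17 / 4 * √2
def c0 : ℝ := -6 + 17 / 4 * √2
def s1 : ℝ := -17 / 2 - 6 * √2
def c1 : ℝ := -17 / 2 + 6 * √2
def y0 : ℝ := (s1 - rho * s0) / (beta - rho)
def w0 : ℝ := s0 - y0

theorem sqrt2_mem : (14142135 / 10000000 : ℝ) ≤ √2 ∧ √2 ≤ 14142136 / 10000000 :=
  ⟨(Real.le_sqrt (by norm_num) (by norm_num)).2 (by norm_num),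
    (Real.sqrt_le_left (by norm_num)).2 (by norm_num)⟩

theorem beta_mem : (1883203 / 1000000 : ℝ) ≤ beta ∧ beta ≤ 1883204 / 1000000 := by
  obtain ⟨h1, h2⟩ := sqrt2_mem
  have h3 : (1352193 / 1000000 : ℝ) ≤ √(z1 ^ 2 - 4) := by
    refine Real.le_sqrt_of_sq_le ?_
    unfold z1; nlinarith
  have h4 : √(z1 ^ 2 - 4) ≤ 1352194 / 1000000 := by
    refine (Real.sqrt_le_left (by norm_num)).2 ?_
    unfold z1; nlinarith
  unfold beta
  unfold z1 at h3 h4 ⊢
  constructor <;> linarith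

theorem beta_pos : 0 < beta := by linarith [beta_mem.1]

theorem rho_mem : (531009 / 1000000 : ℝ) ≤ rho ∧ rho ≤ 531011 / 1000000 := by
  obtain ⟨h1, h2⟩ := beta_mem
  constructor
  · exact le_trans (by norm_num) (inv_anti₀ beta_pos h2)
  · exact le_trans (inv_anti₀ (by norm_num) h1) (by norm_num)

theorem rho_pos : 0 < rho := inv_pos.2 beta_pos

theorem y0_mem : (-784480 / 100000 : ℝ) ≤ y0 ∧ y0 ≤ -784472 / 100000 := by
  obtain ⟨h1, h2⟩ := sqrt2_mem
  obtain ⟨h3, h4⟩ := beta_mem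
  obtain ⟨h5, h6⟩ := rho_mem
  have hd : 0 < beta - rho := by linarith
  unfold y0 s1 s0
  rw [le_div_iff₀ hd, div_le_iff₀ hd]
  constructor <;> nlinarith

theorem w0_abs : |w0| ≤ W := by
  obtain ⟨h1, h2⟩ := sqrt2_mem
  obtain ⟨h3, h4⟩ := y0_mem
  unfold w0 s0 W
  rw [abs_le]; constructor <;> linarith

theorem exists_phase : ∃ S φ : ℝ, 0 ≤ S ∧ S ≤ 17 / 1000 ∧
    S * Real.cos φ = c0 ∧ S * Real.cos (om + φ) = c1 := by
  have hc := two_cos_om
  obtain ⟨h1, h2⟩ := sqrt2_mem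
  have hsin : Real.sin om ^ 2 = 1 - (z2 / 2) ^ 2 := by
    have := Real.sin_sq_add_cos_sq om
    have e : Real.cos om = z2 / 2 := by linarith
    rw [e] at this; linarith
  have hs2 : (957 / 1000 : ℝ) ≤ Real.sin om ^ 2 := by
    rw [hsin]; unfold z2; nlinarith
  have hs0 : Real.sin om ≠ 0 := by
    intro h; rw [h] at hs2; norm_num at hs2
  set B : ℝ := (c1 - c0 * Real.cos om) / Real.sin om with hB
  set z : ℂ := ⟨c0, -B⟩ with hz
  refine ⟨‖z‖, Complex.arg z, norm_nonneg _, ?_, Complex.norm_mul_cos_arg z, ?_⟩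
  · rw [Complex.norm_def, Real.sqrt_le_left (by norm_num), Complex.normSq_mk]
    have hnum : (c1 - c0 * Real.cos om) ^ 2 ≤ (127 / 10000) ^ 2 := by
      rw [show Real.cos om = z2 / 2 by linarith]
      unfold c1 c0 z2
      rw [sq_le_sq, abs_of_nonneg (by norm_num : (0 : ℝ) ≤ 127 / 10000), abs_le]
      constructor <;> nlinarith
    have hB2 : B ^ 2 ≤ (127 / 10000) ^ 2 / (957 / 1000) := by
      rw [hB, div_pow]
      exact div_le_div₀ (by norm_num) hnum (by norm_num) hs2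
    have hc0 : c0 ^ 2 ≤ (10408 / 1000000) ^ 2 := by
      unfold c0
      rw [sq_le_sq, abs_of_nonneg (by norm_num : (0 : ℝ) ≤ 10408 / 1000000), abs_le]
      constructor <;> linarith
    norm_num at hB2 hc0 ⊢
    nlinarith
  · rw [Real.cos_add]
    have e1 := Complex.norm_mul_cos_arg z
    have e2 := Complex.norm_mul_sin_arg z
    have e3 : B * Real.sin om = c1 - c0 * Real.cos om := by
      rw [hB]; field_simp
    simp only [hz] at e1 e2 ⊢
    linear_combination Real.cos om * e1 - Real.sin om * e2 + e3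

theorem osc_base : ∃ S φ : ℝ, 0 ≤ S ∧ S ≤ 17 / 1000 ∧ ∀ i : ℕ, ∃ n : ℤ,
    y0 * beta ^ i + w0 * rho ^ i + S * Real.cos (om * i + φ) = n := by
  obtain ⟨S, φ, hS, hS', hc0, hc1⟩ := exists_phase
  refine ⟨S, φ, hS, hS', ?_⟩
  set sfun : ℕ → ℝ := fun i => y0 * beta ^ i + w0 * rho ^ i with hsf
  set cfun : ℕ → ℝ := fun i => S * Real.cos (om * i + φ) with hcf
  have hb : beta * rho = 1 := mul_inv_cancel₀ beta_pos.ne'
  have hz : beta + rho = z1 := beta_add_inv
  have hs2 : √2 * √2 = (2 : ℝ) := Real.mul_self_sqrt (by norm_num)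
  have h0 : sfun 0 = s0 ∧ cfun 0 = c0 := by
    constructor
    · simp [hsf, w0]
    · simpa [hcf] using hc0
  have h1 : sfun 1 = s1 ∧ cfun 1 = c1 := by
    constructor
    · have hd : beta - rho ≠ 0 := by linarith [beta_mem.1, rho_mem.2]
      have : y0 * (beta - rho) = s1 - rho * s0 := by
        unfold y0; field_simp
      simp only [hsf, w0, pow_one]
      linear_combination this
    · simpa [hcf] using hc1
  have hrs : ∀ i, sfun (i + 2) = z1 * sfun (i + 1) - sfun i := by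
    intro i
    simp only [hsf, ← hz, pow_succ]
    linear_combination -(y0 * beta ^ i + w0 * rho ^ i) * hb
  have hrc : ∀ i, cfun (i + 2) = z2 * cfun (i + 1) - cfun i := by
    intro i
    simp only [hcf, ← two_cos_om]
    push_cast
    set t : ℝ := om * ((i : ℝ) + 1) + φ with ht
    have e1 : om * ((i : ℝ) + 2) + φ = t + om := by rw [ht]; ring
    have e2 : om * (i : ℝ) + φ = t - om := by rw [ht]; ring
    rw [e1, e2, Real.cos_add, Real.cos_sub]
    ring
  have key : ∀ i : ℕ, ∃ N M : ℤ, sfun i = N / 2 + M * √2 / 4 ∧ cfun i = N / 2 - M * √2 / 4 := by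
    intro i
    induction i using Nat.twoStepInduction with
    | zero =>
      refine ⟨-12, -17, ?_, ?_⟩
      · rw [h0.1, s0]; push_cast; ring
      · rw [h0.2, c0]; push_cast; ring
    | one =>
      refine ⟨-17, -24, ?_, ?_⟩
      · rw [h1.1, s1]; push_cast; ring
      · rw [h1.2, c1]; push_cast; ring
    | more n ih1 ih2 =>
      obtain ⟨N, M, a1, a2⟩ := ih1
      obtain ⟨N', M', b1, b2⟩ := ih2
      refine ⟨N' + M' - N, 2 * N' + M' - M, ?_, ?_⟩
      · rw [hrs, a1, b1, z1]; push_cast; linear_combination (M' : ℝ) / 4 * hs2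
      · rw [hrc, a2, b2, z2]; push_cast; linear_combination (M' : ℝ) / 4 * hs2
  intro i
  obtain ⟨N, M, a1, a2⟩ := key i
  exact ⟨N, by simp only [hsf, hcf] at a1 a2; linarith⟩

theorem y0_abs : |y0| ≤ 784480 / 100000 ∧ 784472 / 100000 ≤ |y0| := by
  obtain ⟨h1, h2⟩ := y0_mem
  rw [abs_of_neg (by linarith : y0 < 0)]
  constructor <;> linarith

theorem orb_neg (k : ℕ) : orb y0 (-(k : ℤ)) = y0 * rho ^ k := by
  simp [orb, rho, inv_pow]

theorem near_neg (k : ℕ) (hk : 5 ≤ k) : |orb y0 (-(k : ℤ))| ≤ 8 * rho ^ k ∧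
    |orb y0 (-(k : ℤ))| ≤ 2 / 5 := by
  have h := y0_abs.1
  have hp : 0 < rho ^ k := pow_pos rho_pos k
  have h5 : rho ^ k ≤ (531011 / 1000000 : ℝ) ^ 5 :=
    (pow_le_pow_of_le_one rho_pos.le (by linarith [rho_mem.2]) hk).trans
      (pow_le_pow_left₀ rho_pos.le rho_mem.2 5)
  rw [orb_neg, abs_mul, abs_of_pos hp]
  norm_num at h5
  constructor <;> nlinarith

theorem dist_le (i : ℤ) : ∃ n : ℤ, |orb y0 i - n| ≤ 2 / 5 := by
  obtain ⟨hy1, hy2⟩ := y0_mem
  obtain ⟨hb1, hb2⟩ := beta_mem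
  obtain ⟨hr1, hr2⟩ := rho_mem
  have hyn : ∀ a b x : ℝ, a ≤ x → x ≤ b → 0 ≤ a →
      (-784480 / 100000 : ℝ) * b ≤ y0 * x ∧ y0 * x ≤ -784472 / 100000 * a := by
    intro a b x ha hb ha0
    constructor <;> nlinarith
  rcases Int.eq_nat_or_neg i with ⟨k, rfl | rfl⟩
  · have hk : orb y0 (k : ℤ) = y0 * beta ^ k := by simp [orb]
    rw [hk]
    rcases lt_or_ge k 4 with h | h
    · have hh := hyn ((1883203 / 1000000) ^ k) ((1883204 / 1000000) ^ k) (beta ^ k)
        (pow_le_pow_left₀ (by norm_num) hb1 k) (pow_le_pow_left₀ beta_pos.le hb2 k) (by positivity)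
      interval_cases k
      · refine ⟨-8, ?_⟩; norm_num at hh ⊢; rw [abs_le]; constructor <;> linarith
      · refine ⟨-15, ?_⟩; norm_num at hh ⊢; rw [abs_le]; constructor <;> linarith
      · refine ⟨-28, ?_⟩; norm_num at hh ⊢; rw [abs_le]; constructor <;> linarith
      · refine ⟨-52, ?_⟩; norm_num at hh ⊢; rw [abs_le]; constructor <;> linarith
    · obtain ⟨S, φ, hS, hS', hint⟩ := osc_base
      obtain ⟨n, hn⟩ := hint k
      refine ⟨n, ?_⟩
      rw [show y0 * beta ^ k - (n : ℝ) = -(w0 * rho ^ k + S * Real.cos (om * k + φ)) by linarith,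
        abs_neg]
      refine (abs_add_le _ _).trans ?_
      have h4 : rho ^ k ≤ (531011 / 1000000 : ℝ) ^ 4 :=
        (pow_le_pow_of_le_one rho_pos.le (by linarith) h).trans
          (pow_le_pow_left₀ rho_pos.le hr2 4)
      have e1 : |w0 * rho ^ k| ≤ W * (531011 / 1000000) ^ 4 := by
        rw [abs_mul, abs_of_pos (pow_pos rho_pos k)]
        exact mul_le_mul w0_abs h4 (pow_pos rho_pos k).le (by norm_num [W])
      have e2 : |S * Real.cos (om * k + φ)| ≤ S := by
        rw [abs_mul, abs_of_nonneg hS]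
        exact mul_le_of_le_one_right hS (Real.abs_cos_le_one _)
      have hW : W * (531011 / 1000000 : ℝ) ^ 4 ≤ 35 / 100 := by norm_num [W]
      linarith
  · rcases lt_or_ge k 5 with h | h
    · rw [orb_neg]
      have hh := hyn ((531009 / 1000000) ^ k) ((531011 / 1000000) ^ k) (rho ^ k)
        (pow_le_pow_left₀ (by norm_num) hr1 k) (pow_le_pow_left₀ rho_pos.le hr2 k) (by positivity)
      interval_cases k
      · refine ⟨-8, ?_⟩; norm_num at hh ⊢; rw [abs_le]; constructor <;> linarith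
      · refine ⟨-4, ?_⟩; norm_num at hh ⊢; rw [abs_le]; constructor <;> linarith
      · refine ⟨-2, ?_⟩; norm_num at hh ⊢; rw [abs_le]; constructor <;> linarith
      · refine ⟨-1, ?_⟩; norm_num at hh ⊢; rw [abs_le]; constructor <;> linarith
      · refine ⟨-1, ?_⟩; norm_num at hh ⊢; rw [abs_le]; constructor <;> linarith
    · exact ⟨0, by simpa using (near_neg k h).2⟩

theorem tan_two_fifths : Real.tan (π * (2 / 5)) ≤ 16 / 5 := by
  have hp := Real.pi_pos
  have h1 : π / 10 < Real.tan (π / 10) := Real.lt_tan (by positivity) (by linarith)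
  have h2 : π * (2 / 5) = π / 2 - π / 10 := by ring
  rw [h2, Real.tan_pi_div_two_sub]
  have h3 : (5 / 16 : ℝ) ≤ Real.tan (π / 10) := by linarith [Real.pi_gt_d2]
  exact (inv_anti₀ (by norm_num) h3).trans (by norm_num)

theorem cos_tan_of_near {x : ℝ} (hx : |x| ≤ 2 / 5) :
    1 / 4 ≤ Real.cos (π * x) ∧ |Real.tan (π * x)| ≤ 16 / 5 := by
  have hp := Real.pi_pos
  obtain ⟨h1, h2⟩ := abs_le.1 hx
  have hpos : 0 < Real.cos (π * x) :=
    Real.cos_pos_of_mem_Ioo ⟨by nlinarith, by nlinarith⟩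
  have ht : |Real.tan (π * x)| ≤ 16 / 5 := by
    refine le_trans ?_ tan_two_fifths
    have hm := Real.strictMonoOn_tan.monotoneOn
    have hi : ∀ t : ℝ, |t| ≤ 2 / 5 → π * t ∈ Set.Ioo (-(π / 2)) (π / 2) := by
      intro t ht
      obtain ⟨a, b⟩ := abs_le.1 ht
      exact ⟨by nlinarith, by nlinarith⟩
    rw [abs_le]
    constructor
    · rw [← Real.tan_neg, ← mul_neg]
      exact hm (hi _ (by norm_num)) (hi x hx) (mul_le_mul_of_nonneg_left h1 hp.le)
    · exact hm (hi x hx) (hi _ (by norm_num)) (mul_le_mul_of_nonneg_left h2 hp.le)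
  refine ⟨?_, ht⟩
  have he := Real.inv_one_add_tan_sq hpos.ne'
  have hsq : Real.tan (π * x) ^ 2 ≤ (16 / 5) ^ 2 := by
    rw [← sq_abs]; exact pow_le_pow_left₀ (abs_nonneg _) ht 2
  have h16 : (1 / 4 : ℝ) ^ 2 ≤ Real.cos (π * x) ^ 2 := by
    rw [← he]
    refine le_trans (by norm_num : (1 / 4 : ℝ) ^ 2 ≤ (1 + (16 / 5) ^ 2)⁻¹) ?_
    exact inv_anti₀ (by positivity) (by linarith)
  exact (sq_le_sq₀ (by norm_num) hpos.le).1 h16

theorem trig_base (i : ℤ) :
    1 / 4 ≤ |Real.cos (π * orb y0 i)| ∧ tau y0 i ≤ 16 / 5 := by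
  obtain ⟨n, hn⟩ := dist_le i
  obtain ⟨h1, h2⟩ := cos_tan_of_near hn
  have e : π * orb y0 i = π * (orb y0 i - n) + (n : ℤ) * π := by ring
  constructor
  · rw [e, Real.cos_add_int_mul_pi, abs_mul, abs_neg_one_zpow, one_mul]
    exact h1.trans (le_abs_self _)
  · unfold tau
    rw [e, Real.tan_add_int_mul_pi]
    exact h2

theorem psi_base (k : ℕ) : psi y0 (-(k : ℤ)) ≤ 1280 * rho ^ k := by
  have h14 := (trig_base (-(k : ℤ))).1
  set x := orb y0 (-(k : ℤ)) with hx
  have hc : 0 < |Real.cos (π * x)| := by linarith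
  have hl := Real.one_sub_inv_le_log_of_pos hc
  have hpsi : psi y0 (-(k : ℤ)) ≤ |Real.cos (π * x)|⁻¹ - 1 := by
    show -Real.log |Real.cos (π * x)| ≤ _
    linarith
  rcases lt_or_ge k 5 with hk | hk
  · have h5 : (531009 / 1000000 : ℝ) ^ 5 ≤ rho ^ k :=
      (pow_le_pow_left₀ (by norm_num) rho_mem.1 5).trans
        (pow_le_pow_of_le_one rho_pos.le (by linarith [rho_mem.2]) hk.le)
    have : |Real.cos (π * x)|⁻¹ ≤ 4 := (inv_anti₀ (by norm_num) h14).trans (by norm_num)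
    norm_num at h5
    linarith
  · obtain ⟨h8, -⟩ := near_neg k hk
    rw [← hx] at h8
    have hsq : x ^ 2 ≤ 64 * rho ^ k := by
      have e1 : x ^ 2 ≤ (8 * rho ^ k) ^ 2 := by
        rw [← sq_abs]; exact pow_le_pow_left₀ (abs_nonneg _) h8 2
      have e2 : rho ^ k ≤ 1 := pow_le_one₀ rho_pos.le (by linarith [rho_mem.2])
      nlinarith [pow_pos rho_pos k]
    have hlow := Real.one_sub_sq_div_two_le_cos (x := π * x)
    have hinv : |Real.cos (π * x)|⁻¹ - 1 ≤ 4 * (1 - Real.cos (π * x)) := by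
      have h4 : |Real.cos (π * x)|⁻¹ ≤ 4 := (inv_anti₀ (by norm_num) h14).trans (by norm_num)
      have hid : |Real.cos (π * x)|⁻¹ - 1 = |Real.cos (π * x)|⁻¹ * (1 - |Real.cos (π * x)|) := by
        rw [mul_sub, inv_mul_cancel₀ hc.ne', mul_one]
      rw [hid]
      exact mul_le_mul h4 (by linarith [le_abs_self (Real.cos (π * x))])
        (by linarith [Real.abs_cos_le_one (π * x)]) (by norm_num)
    have hpi2 : π ^ 2 ≤ 10 := by nlinarith [Real.pi_lt_d2, Real.pi_pos]
    nlinarith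

end BaseAux

open BaseAux in
/-- The starting gadget. -/
theorem exists_baseGadget : ∃ y Φ : ℝ, Gadget y 20 (17 / 1000) (16 / 5) Φ := by
  refine ⟨y0, 1280 * 3, ?_, ?_, ?_, ?_, ?_, ?_⟩
  · obtain ⟨S, φ, h1, h2, h3⟩ := osc_base
    exact ⟨w0, S, φ, w0_abs, h1, h2, h3⟩
  · linarith [y0_abs.2]
  · refine y0_abs.1.trans ?_
    exact le_trans (by norm_num) (pow_le_pow_left₀ (by norm_num) beta_mem.1 20)
  · intro i h0
    have := (trig_base i).1
    rw [h0, abs_zero] at this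
    norm_num at this
  · exact fun i => (trig_base i).2
  · intro M
    refine (Finset.sum_le_sum fun k _ => psi_base k).trans ?_
    rw [← Finset.mul_sum]
    refine mul_le_mul_of_nonneg_left ?_ (by norm_num)
    have h := geom_sum_mul_neg rho M
    have := pow_pos rho_pos M
    have hs : 0 ≤ ∑ i ∈ range M, rho ^ i := sum_nonneg fun i _ => pow_nonneg rho_pos.le i
    nlinarith [rho_mem.2]

end Vale.Agent.P105
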