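import Mathlib

/-!
# P105: definitions for the singular Bernoulli convolution at a quartic Salem parameter

`beta` is the root `> 1` of `X^4 - 2X^3 + X^2 - 2X + 1`; `rho = 1/beta`; `e^{± i om}` are the
conjugates on the unit circle.
-/

noncomputable section

open Real Finset

namespace Vale.Agent.P105

def z1 : ℝ := 1 + √2

def z2 : ℝ := 1 - √2

def beta : ℝ := (z1 + √(z1 ^ 2 - 4)) / 2

def rho : ℝ := beta⁻¹

/-- the argument of the unit-circle conjugate -/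
def om : ℝ := Real.arccos (z2 / 2)

def th : ℝ := om / (2 * π)

/-- orbit of `y` under multiplication by `beta` -/
def orb (y : ℝ) (i : ℤ) : ℝ := y * beta ^ i

def tau (y : ℝ) (i : ℤ) : ℝ := |Real.tan (π * orb y i)|

def psi (y : ℝ) (i : ℤ) : ℝ := -Real.log |Real.cos (π * orb y i)|

/-- bound for the contracting coordinate -/
def W : ℝ := 21 / 5

/-- `y` with window `E`, circle amplitude `δ`, tangent bound `C` and cost `Φ`. -/
structure Gadget (y : ℝ) (E : ℕ) (δ C Φ : ℝ) : Prop where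
  osc : ∃ w S φ : ℝ, |w| ≤ W ∧ 0 ≤ S ∧ S ≤ δ ∧
    ∀ i : ℕ, ∃ n : ℤ, y * beta ^ i + w * rho ^ i + S * Real.cos (om * i + φ) = n
  two_le : 2 ≤ |y|
  le_pow : |y| ≤ beta ^ E
  cos_ne : ∀ i : ℤ, Real.cos (π * orb y i) ≠ 0
  tan_le : ∀ i : ℤ, tau y i ≤ C
  cost : ∀ M : ℕ, ∑ k ∈ range M, psi y (-(k : ℤ)) ≤ Φ

/-- helper13's interface: this alone forces singularity of the convolution with ratio `b⁻¹`. -/
def Good (b : ℝ) : Prop :=
  ∀ ε : ℝ, 0 < ε → ∃ (x : ℝ) (N : ℕ) (T : ℝ), 1 ≤ |x| ∧ 0 < N ∧ 0 < T ∧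
    (∀ M : ℕ, ∀ j < N, T ≤ ∏ i ∈ range M, |Real.cos (2 * π * x * b ^ ((j : ℤ) - i))|) ∧
    (∀ M : ℕ, ∑ i ∈ range M,
      (∑ j ∈ range N, |Real.sin (2 * π * x * b ^ ((j : ℤ) - i))|) ^ 2 ≤ ε * T ^ 2 * (N : ℝ) ^ 2) ∧
    1 ≤ ε * T ^ 2 * N

end Vale.Agent.P105
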