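import Vale.Agent.P105.Defs

/-! Bounds on `tau`, `psi` along the orbit of a gadget. -/

noncomputable section

open Real Finset

namespace Vale.Agent.P105

private theorem env_beta_ge : 15 / 8 ≤ beta := by
  have h1 : (141 : ℝ) / 100 ≤ √2 := by
    rw [Real.le_sqrt (by norm_num) (by norm_num)]; norm_num
  have h2 : (134 : ℝ) / 100 ≤ √(z1 ^ 2 - 4) := by
    refine Real.le_sqrt_of_sq_le ?_
    unfold z1; nlinarith
  unfold beta
  unfold z1 at h2 ⊢
  linarith

private theorem env_beta_pos : 0 < beta := by linarith [env_beta_ge]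

private theorem env_rho_pos : 0 < rho := inv_pos.2 env_beta_pos

private theorem env_rho_le : rho ≤ 8 / 15 := by
  have := inv_anti₀ (show (0 : ℝ) < 15 / 8 by norm_num) env_beta_ge
  unfold rho; norm_num at this; exact this

private theorem env_geom (n : ℕ) : ∑ i ∈ range n, rho ^ i ≤ 15 / 7 := by
  have h := geom_sum_mul_neg rho n
  have hp : 0 ≤ rho ^ n := pow_nonneg env_rho_pos.le n
  have hs : 0 ≤ ∑ i ∈ range n, rho ^ i := sum_nonneg fun i _ => pow_nonneg env_rho_pos.le i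
  nlinarith [env_rho_le]

private theorem env_tan_le {x : ℝ} (hx : |x| ≤ 1 / 4) : |Real.tan (π * x)| ≤ 4 * |x| := by
  have key : ∀ t : ℝ, 0 ≤ t → t ≤ 1 / 4 → |Real.tan (π * t)| ≤ 4 * t := by
    intro t h0 h1
    have hsub : ∀ a ∈ Set.Icc (0 : ℝ) (π / 4), 0 < Real.cos a := fun a ha =>
      Real.cos_pos_of_mem_Ioo ⟨by linarith [ha.1, Real.pi_pos], by linarith [ha.2, Real.pi_pos]⟩
    have hconv : ConvexOn ℝ (Set.Icc (0 : ℝ) (π / 4)) Real.tan := by
      apply MonotoneOn.convexOn_of_deriv (convex_Icc _ _)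
      · exact fun a ha => (Real.continuousAt_tan.2 (hsub a ha).ne').continuousWithinAt
      · exact fun a ha =>
          (Real.differentiableAt_tan.2 (hsub a (interior_subset ha)).ne').differentiableWithinAt
      · intro a ha b hb hab
        have ha' := interior_subset ha
        have hb' := interior_subset hb
        rw [Real.deriv_tan, Real.deriv_tan]
        have hc := hsub b hb'
        gcongr
        exact Real.cos_le_cos_of_nonneg_of_le_pi ha'.1 (by linarith [hb'.2, Real.pi_pos]) hab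
    have hpi := Real.pi_pos
    have := hconv.2 (show (0 : ℝ) ∈ Set.Icc (0 : ℝ) (π / 4) from ⟨le_rfl, by linarith⟩)
      (show π / 4 ∈ Set.Icc (0 : ℝ) (π / 4) from ⟨by linarith, le_rfl⟩)
      (show (0 : ℝ) ≤ 1 - 4 * t by linarith) (show (0 : ℝ) ≤ 4 * t by linarith) (by ring)
    simp only [smul_eq_mul, Real.tan_zero, Real.tan_pi_div_four, mul_zero, zero_add, mul_one] at this
    rw [show 4 * t * (π / 4) = π * t by ring] at this
    rw [abs_of_nonneg (Real.tan_nonneg_of_nonneg_of_le_pi_div_two (by positivity) (by nlinarith))]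
    exact this
  rcases le_total 0 x with h | h
  · rw [abs_of_nonneg h] at hx ⊢
    exact key x h hx
  · rw [abs_of_nonpos h] at hx ⊢
    have := key (-x) (by linarith) hx
    rwa [mul_neg, Real.tan_neg, abs_neg] at this

variable {y δ C Φ : ℝ} {E : ℕ}

private theorem Gadget.env_δ_nonneg (h : Gadget y E δ C Φ) : 0 ≤ δ := by
  obtain ⟨w, S, φ, -, hS, hSδ, -⟩ := h.osc
  linarith

private theorem env_tau_nonneg (i : ℤ) : 0 ≤ tau y i := abs_nonneg _

theorem Gadget.psi_nonneg (h : Gadget y E δ C Φ) (i : ℤ) : 0 ≤ psi y i := by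
  have h1 : 0 < |Real.cos (π * orb y i)| := abs_pos.2 (h.cos_ne i)
  have := Real.log_nonpos h1.le (Real.abs_cos_le_one _)
  unfold psi
  linarith

theorem Gadget.cost_nonneg (h : Gadget y E δ C Φ) : 0 ≤ Φ := by
  simpa using h.cost 0

theorem Gadget.psi_le (h : Gadget y E δ C Φ) (i : ℤ) : psi y i ≤ tau y i ^ 2 / 2 := by
  have hc := h.cos_ne i
  unfold psi tau
  rw [sq_abs]
  set a := π * orb y i
  have h1 : Real.log (1 + Real.tan a ^ 2) ≤ Real.tan a ^ 2 := by
    have := Real.log_le_sub_one_of_pos (show 0 < 1 + Real.tan a ^ 2 by positivity)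
    linarith
  have h2 : Real.log (1 + Real.tan a ^ 2) = -(2 * Real.log |Real.cos a|) := by
    rw [← inv_inv (1 + Real.tan a ^ 2), Real.inv_one_add_tan_sq hc, Real.log_inv, Real.log_pow,
      Real.log_abs]
    norm_num
  linarith

theorem Gadget.abs_sin_le (h : Gadget y E δ C Φ) (i : ℤ) :
    |Real.sin (π * orb y i)| ≤ tau y i := by
  have hc : 0 < |Real.cos (π * orb y i)| := abs_pos.2 (h.cos_ne i)
  unfold tau
  rw [Real.tan_eq_sin_div_cos, abs_div]
  exact le_div_self (abs_nonneg _) hc (Real.abs_cos_le_one _)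

theorem Gadget.tau_right_small (h : Gadget y E δ C Φ) (i : ℕ)
    (hs : W * rho ^ i + δ ≤ 1 / 4) : tau y i ≤ 4 * (W * rho ^ i + δ) := by
  obtain ⟨w, S, φ, hw, hS, hSδ, hn⟩ := h.osc
  obtain ⟨n, hn⟩ := hn i
  have hi : 0 ≤ rho ^ i := pow_nonneg env_rho_pos.le i
  set t := w * rho ^ i + S * Real.cos (om * i + φ) with ht
  have htb : |t| ≤ W * rho ^ i + δ := by
    refine (abs_add_le _ _).trans (add_le_add ?_ ?_)
    · rw [abs_mul, abs_of_nonneg hi]
      exact mul_le_mul_of_nonneg_right hw hi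
    · rw [abs_mul, abs_of_nonneg hS]
      exact (mul_le_of_le_one_right hS (Real.abs_cos_le_one _)).trans hSδ
  have he : π * orb y i = (n : ℝ) * π - π * t := by
    rw [orb, zpow_natCast, show y * beta ^ i = (n : ℝ) - t by rw [ht, ← hn]; ring]
    ring
  unfold tau
  rw [he, Real.tan_int_mul_pi_sub, abs_neg]
  exact (env_tan_le (htb.trans hs)).trans (by linarith)

theorem Gadget.tau_right (h : Gadget y E δ C Φ) (hC : C ≤ 5) (i : ℕ) :
    tau y i ≤ 100 * (rho ^ i + δ) := by
  have hd := h.env_δ_nonneg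
  have hi : 0 ≤ rho ^ i := pow_nonneg env_rho_pos.le i
  rcases le_or_gt (W * rho ^ i + δ) (1 / 4) with hs | hs
  · refine (h.tau_right_small i hs).trans ?_
    unfold W
    linarith
  · have := h.tan_le i
    unfold W at hs
    linarith

theorem Gadget.tau_left_small (h : Gadget y E δ C Φ) (i : ℤ)
    (hs : beta ^ ((E : ℤ) + i) ≤ 1 / 4) : tau y i ≤ 4 * beta ^ ((E : ℤ) + i) := by
  have hb : |orb y i| ≤ beta ^ ((E : ℤ) + i) := by
    rw [orb, abs_mul, abs_of_pos (zpow_pos env_beta_pos i), zpow_add₀ env_beta_pos.ne',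
      zpow_natCast]
    exact mul_le_mul_of_nonneg_right h.le_pow (zpow_pos env_beta_pos i).le
  unfold tau
  exact (env_tan_le (hb.trans hs)).trans (by linarith)

theorem Gadget.tau_left (h : Gadget y E δ C Φ) (hC : C ≤ 5) (i : ℤ) :
    tau y i ≤ 20 * beta ^ ((E : ℤ) + i) := by
  have hp : 0 < beta ^ ((E : ℤ) + i) := zpow_pos env_beta_pos _
  rcases le_or_gt (beta ^ ((E : ℤ) + i)) (1 / 4) with hs | hs
  · exact (h.tau_left_small i hs).trans (by linarith)
  · have := h.tan_le i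
    linarith

theorem Gadget.sum_tau_left (h : Gadget y E δ C Φ) (hC : C ≤ 5) (M : ℕ) :
    ∑ k ∈ range M, tau y (-(k : ℤ)) ≤ 30 * ((E : ℝ) + 1) := by
  have h0 : ∑ k ∈ range M, tau y (-(k : ℤ)) ≤ ∑ k ∈ range (E + 1 + M), tau y (-(k : ℤ)) :=
    sum_le_sum_of_subset_of_nonneg (range_mono (by omega)) fun k _ _ => env_tau_nonneg _
  rw [sum_range_add] at h0
  have h1 : ∑ k ∈ range (E + 1), tau y (-(k : ℤ)) ≤ ((E : ℝ) + 1) * 5 := by
    refine (sum_le_sum fun k _ => (h.tan_le _).trans hC).trans ?_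
    simp
  have h2 : ∑ j ∈ range M, tau y (-((E + 1 + j : ℕ) : ℤ)) ≤ 20 * (8 / 15) * (15 / 7) := by
    have hj : ∀ j ∈ range M, tau y (-((E + 1 + j : ℕ) : ℤ)) ≤ 20 * rho * rho ^ j := by
      intro j _
      refine (h.tau_left hC _).trans (le_of_eq ?_)
      rw [show (E : ℤ) + -((E + 1 + j : ℕ) : ℤ) = -((1 + j : ℕ) : ℤ) by push_cast; ring,
        zpow_neg, zpow_natCast, ← inv_pow, pow_add, pow_one]
      unfold rho; ring
    refine (sum_le_sum hj).trans ?_
    rw [← mul_sum]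
    exact mul_le_mul (by linarith [env_rho_le]) (env_geom M)
      (sum_nonneg fun j _ => pow_nonneg env_rho_pos.le j) (by norm_num)
  have hE : (0 : ℝ) ≤ E := Nat.cast_nonneg E
  linarith

theorem Gadget.sum_tau_right (h : Gadget y E δ C Φ) (hC : C ≤ 5) (n : ℕ) :
    ∑ i ∈ range n, tau y (i : ℤ) ≤ 100 * (3 + δ * n) := by
  refine (sum_le_sum fun i _ => h.tau_right hC i).trans ?_
  rw [← mul_sum, sum_add_distrib, sum_const, card_range, nsmul_eq_mul]
  linarith [env_geom n, mul_comm (n : ℝ) δ]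

theorem Gadget.sum_psi_right (h : Gadget y E δ C Φ) (hC : C ≤ 5) (n : ℕ) :
    ∑ i ∈ range n, psi y ((i : ℤ) + 1) ≤ 10000 * (3 + δ ^ 2 * n) := by
  have hterm : ∀ i ∈ range n, psi y ((i : ℤ) + 1) ≤ 10000 * (rho ^ i + δ ^ 2) := by
    intro i _
    have h1 := h.psi_le ((i : ℤ) + 1)
    have h2 := h.tau_right hC (i + 1)
    push_cast at h2
    have h0 := env_tau_nonneg (y := y) ((i : ℤ) + 1)
    have hs := mul_self_le_mul_self h0 h2
    have hle1 : rho ≤ 1 := by linarith [env_rho_le]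
    have h3 : (rho ^ (i + 1)) ^ 2 ≤ rho ^ i := by
      rw [← pow_mul]
      exact pow_le_pow_of_le_one env_rho_pos.le hle1 (by omega)
    nlinarith [sq_nonneg (rho ^ (i + 1) - δ)]
  refine (sum_le_sum hterm).trans ?_
  rw [← mul_sum, sum_add_distrib, sum_const, card_range, nsmul_eq_mul]
  linarith [env_geom n, mul_comm (n : ℝ) (δ ^ 2)]

/-- the cost of the shifted orbit -/
theorem Gadget.cost_shift (h : Gadget y E δ C Φ) (hC : C ≤ 5) (j M : ℕ) :
    ∑ k ∈ range M, psi y ((j : ℤ) - k) ≤ Φ + 10000 * (3 + δ ^ 2 * j) := by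
  have h0 : ∑ k ∈ range M, psi y ((j : ℤ) - k) ≤ ∑ k ∈ range (j + M), psi y ((j : ℤ) - k) :=
    sum_le_sum_of_subset_of_nonneg (range_mono (by omega)) fun k _ _ => h.psi_nonneg _
  rw [sum_range_add] at h0
  have h1 : ∑ k ∈ range j, psi y ((j : ℤ) - k) = ∑ i ∈ range j, psi y ((i : ℤ) + 1) := by
    rw [← sum_range_reflect (fun i : ℕ => psi y ((i : ℤ) + 1)) j]
    refine sum_congr rfl fun k hk => ?_
    have := mem_range.1 hk
    congr 1
    omega
  have h2 : ∑ k ∈ range M, psi y ((j : ℤ) - ((j + k : ℕ) : ℤ)) ≤ Φ := by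
    refine le_trans (le_of_eq (sum_congr rfl fun k _ => ?_)) (h.cost M)
    congr 1
    push_cast; ring
  have := h.sum_psi_right hC j
  linarith

end Vale.Agent.P105
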