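/-
P105 (helper9): the bounded-difference variance bound for Bernoulli convolutions.
-/
import Vale.Agent.P105.Base

namespace Vale.Agent.P105

open MeasureTheory Filter Topology Complex
open scoped ENNReal

variable {l : ℝ}

/-- The partial sum of the series. -/
noncomputable def psum (l : ℝ) (n : ℕ) (ω : ℕ → Bool) : ℝ :=
  ∑ k ∈ Finset.range n, sgn (ω k) * l ^ k

/-- The law of the partial sum. -/
noncomputable def plaw (l : ℝ) (n : ℕ) : Measure ℝ := coin.map (psum l n)

lemma measurable_psum (n : ℕ) : Measurable (psum l n) :=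
  Finset.measurable_sum _ fun k _ =>
    ((measurable_of_countable sgn).comp (measurable_pi_apply k)).mul_const _

instance (n : ℕ) : IsProbabilityMeasure (plaw l n) :=
  Measure.isProbabilityMeasure_map (measurable_psum n).aemeasurable

lemma charFun_plaw (n : ℕ) (t : ℝ) :
    charFun (plaw l n) t = ((∏ k ∈ Finset.range n, Real.cos (t * l ^ k) : ℝ) : ℂ) := by
  rw [charFun_apply_real, plaw, integral_map (measurable_psum n).aemeasurable (by fun_prop)]
  exact integral_cexp_partial t n

/-- Bounded continuous functions are integrable for the probability laws in use. -/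
lemma integrable_of_bdd {μ : Measure ℝ} [IsFiniteMeasure μ] {g : ℝ → ℝ} (hg : Continuous g)
    {K : ℝ} (hK : ∀ x, |g x| ≤ K) : Integrable g μ :=
  (integrable_const K).mono' hg.aestronglyMeasurable (ae_of_all _ fun x => by
    rw [Real.norm_eq_abs]; exact hK x)

/-- One more digit. -/
lemma integral_plaw_succ {g : ℝ → ℝ} (hg : Continuous g) {K : ℝ} (hK : ∀ x, |g x| ≤ K) (n : ℕ) :
    ∫ x, g x ∂plaw l (n + 1) =
      ((∫ x, g (x + l ^ n) ∂plaw l n) + ∫ x, g (x - l ^ n) ∂plaw l n) / 2 := by
  have p : ∀ s : ℝ, IsFiniteMeasure ((2⁻¹ : ℝ≥0∞) • (plaw l n).map fun x => s + 1 * x) := fun s =>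
    Measure.smul_finite _ (by simp)
  set ν : Measure ℝ := (2⁻¹ : ℝ≥0∞) • (plaw l n).map (fun x => l ^ n + 1 * x) +
    (2⁻¹ : ℝ≥0∞) • (plaw l n).map (fun x => -l ^ n + 1 * x) with hν
  have : IsFiniteMeasure ν := by
    have := p (l ^ n); have := p (-l ^ n); rw [hν]; infer_instance
  have e : plaw l (n + 1) = ν := by
    refine Measure.ext_of_charFun (funext fun t => ?_)
    have hi : ∀ (μ : Measure ℝ), IsFiniteMeasure μ →
        Integrable (fun x : ℝ => cexp ((t : ℂ) * x * I)) μ := fun μ _ => by
      refine Integrable.mono' (integrable_const (1 : ℝ)) (by fun_prop) (ae_of_all _ fun x => ?_)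
      rw [← ofReal_mul, Complex.norm_exp_ofReal_mul_I]
    rw [hν, charFun_apply_real (μ := (2⁻¹ : ℝ≥0∞) • _ + _),
      integral_add_measure (hi _ (p _)) (hi _ (p _)), integral_smul_measure, integral_smul_measure,
      ← charFun_apply_real, ← charFun_apply_real, charFun_affine, charFun_affine, mul_one,
      charFun_plaw, charFun_plaw, Finset.prod_range_succ, Complex.ofReal_mul, Complex.ofReal_cos,
      Complex.cos]
    simp only [ENNReal.toReal_inv, ENNReal.toReal_ofNat, Complex.real_smul]
    push_cast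
    ring_nf
  have i1 : ∀ s : ℝ, Integrable g ((2⁻¹ : ℝ≥0∞) • (plaw l n).map fun x => s + 1 * x) := fun s =>
    have := p s
    integrable_of_bdd hg hK
  rw [e, hν, integral_add_measure (i1 _) (i1 _), integral_smul_measure, integral_smul_measure,
    integral_map (by fun_prop) hg.aestronglyMeasurable,
    integral_map (by fun_prop) hg.aestronglyMeasurable]
  simp only [ENNReal.toReal_inv, ENNReal.toReal_ofNat, smul_eq_mul, one_mul]
  have e1 : ∀ x : ℝ, l ^ n + x = x + l ^ n := fun x => add_comm _ _
  have e2 : ∀ x : ℝ, -l ^ n + x = x - l ^ n := fun x => by ring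
  simp only [e1, e2]
  ring

/-- The bounded-difference inequality for the partial sums. -/
theorem plaw_second_moment_le (c : ℕ → ℝ) : ∀ (n : ℕ) (g : ℝ → ℝ), Continuous g →
    ∀ K : ℝ, (∀ x, |g x| ≤ K) → (∀ i x, |g (x + l ^ i) - g (x - l ^ i)| ≤ c i) →
    ∫ x, g x ^ 2 ∂plaw l n ≤ (∫ x, g x ∂plaw l n) ^ 2 + (∑ i ∈ Finset.range n, c i ^ 2) / 4
  | 0, g, hg, K, hK, _ => by
    have e : plaw l 0 = Measure.dirac 0 := by
      rw [plaw, show psum l 0 = fun _ => (0 : ℝ) from funext fun ω => by simp [psum],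
        Measure.map_const]
      simp
    rw [e, integral_dirac, integral_dirac]
    simp
  | n + 1, g, hg, K, hK, hc => by
    set h : ℝ → ℝ := fun x => (g (x + l ^ n) + g (x - l ^ n)) / 2 with hh
    have hhc : Continuous h := by fun_prop
    have hhK : ∀ x, |h x| ≤ K := fun x => by
      have a := abs_le.mp (hK (x + l ^ n))
      have b := abs_le.mp (hK (x - l ^ n))
      simp only [hh]
      exact abs_le.mpr ⟨by linarith [a.1, b.1], by linarith [a.2, b.2]⟩
    have hhd : ∀ i x, |h (x + l ^ i) - h (x - l ^ i)| ≤ c i := fun i x => by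
      have a := abs_le.mp (hc i (x + l ^ n))
      have b := abs_le.mp (hc i (x - l ^ n))
      simp only [hh]
      rw [show x + l ^ i + l ^ n = x + l ^ n + l ^ i by ring,
        show x + l ^ i - l ^ n = x - l ^ n + l ^ i by ring,
        show x - l ^ i + l ^ n = x + l ^ n - l ^ i by ring,
        show x - l ^ i - l ^ n = x - l ^ n - l ^ i by ring]
      exact abs_le.mpr ⟨by linarith [a.1, b.1], by linarith [a.2, b.2]⟩
    have ih := plaw_second_moment_le c n h hhc K hhK hhd
    have hK2 : ∀ x, |g x ^ 2| ≤ K ^ 2 := fun x => by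
      rw [abs_pow]; exact pow_le_pow_left₀ (abs_nonneg _) (hK x) 2
    have g1 : Continuous fun x => g (x + l ^ n) := by fun_prop
    have g2 : Continuous fun x => g (x - l ^ n) := by fun_prop
    have em : ∫ x, g x ∂plaw l (n + 1) = ∫ x, h x ∂plaw l n := by
      rw [integral_plaw_succ hg hK, ← integral_add (integrable_of_bdd g1 fun x => hK _)
        (integrable_of_bdd g2 fun x => hK _), ← integral_div]
    have g3 : Integrable (fun x => g (x + l ^ n) ^ 2) (plaw l n) :=
      integrable_of_bdd (g1.pow 2) fun x => hK2 _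
    have g4 : Integrable (fun x => g (x - l ^ n) ^ 2) (plaw l n) :=
      integrable_of_bdd (g2.pow 2) fun x => hK2 _
    have h2 : Integrable (fun x => h x ^ 2) (plaw l n) :=
      integrable_of_bdd (hhc.pow 2) (K := K ^ 2) fun x => by
        rw [abs_pow]; exact pow_le_pow_left₀ (abs_nonneg _) (hhK x) 2
    have es : ∫ x, g x ^ 2 ∂plaw l (n + 1) ≤ (∫ x, h x ^ 2 ∂plaw l n) + c n ^ 2 / 4 := by
      rw [integral_plaw_succ (g := fun x => g x ^ 2) (hg.pow 2) hK2, ← integral_add g3 g4,
        ← integral_div]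
      calc ∫ x, (g (x + l ^ n) ^ 2 + g (x - l ^ n) ^ 2) / 2 ∂plaw l n
          ≤ ∫ x, (h x ^ 2 + c n ^ 2 / 4) ∂plaw l n := by
            refine integral_mono ((g3.add g4).div_const 2) (h2.add (integrable_const _)) fun x => ?_
            have d : (g (x + l ^ n) - g (x - l ^ n)) ^ 2 ≤ c n ^ 2 := by
              rw [← sq_abs]; exact pow_le_pow_left₀ (abs_nonneg _) (hc n x) 2
            simp only [hh]
            nlinarith
        _ = _ := by simp [integral_add h2 (integrable_const _)]
    rw [em, Finset.sum_range_succ]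
    linarith

/-- Bounded continuous integrals are limits along the partial sums. -/
theorem tendsto_integral_plaw (h0 : 0 ≤ l) (h1 : l < 1) {g : ℝ → ℝ} (hg : Continuous g) {K : ℝ}
    (hK : ∀ x, |g x| ≤ K) :
    Tendsto (fun n => ∫ x, g x ∂plaw l n) atTop (𝓝 (∫ x, g x ∂bconv l)) := by
  rw [bconv, integral_map (measurable_series h0 h1).aemeasurable hg.aestronglyMeasurable]
  simp_rw [plaw, integral_map (measurable_psum _).aemeasurable hg.aestronglyMeasurable]
  refine tendsto_integral_of_dominated_convergence (fun _ => K)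
    (fun n => (hg.measurable.comp (measurable_psum n)).aestronglyMeasurable) (integrable_const _)
    (fun n => ae_of_all _ fun ω => by rw [Real.norm_eq_abs]; exact hK _)
    (ae_of_all _ fun ω => ?_)
  exact (hg.tendsto _).comp (summable_series h0 h1 ω).hasSum.tendsto_sum_nat

/-- The bounded-difference inequality for the Bernoulli convolution. -/
theorem bconv_second_moment_le (h0 : 0 ≤ l) (h1 : l < 1) {g : ℝ → ℝ} (hg : Continuous g) {K : ℝ}
    (hK : ∀ x, |g x| ≤ K) {c : ℕ → ℝ} (hc : ∀ i x, |g (x + l ^ i) - g (x - l ^ i)| ≤ c i)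
    {B : ℝ} (hB : ∀ n, ∑ i ∈ Finset.range n, c i ^ 2 ≤ B) :
    ∫ x, g x ^ 2 ∂bconv l ≤ (∫ x, g x ∂bconv l) ^ 2 + B / 4 := by
  refine le_of_tendsto_of_tendsto' (tendsto_integral_plaw h0 h1 (g := fun x => g x ^ 2)
    (K := K ^ 2) (hg.pow 2) fun x => ?_)
    (((tendsto_integral_plaw h0 h1 hg hK).pow 2).add tendsto_const_nhds)
    fun n => (plaw_second_moment_le c n g hg K hK hc).trans (by linarith [hB n])
  rw [abs_pow]
  exact pow_le_pow_left₀ (abs_nonneg _) (hK x) 2

/-- A sum of cosines changes by at most twice the sum of sines under a flip. -/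
theorem cosSum_flip_le {ι : Type*} (s : Finset ι) (a t : ι → ℝ) (ha : ∀ j ∈ s, |a j| ≤ 1)
    (x d : ℝ) :
    |(∑ j ∈ s, a j * Real.cos (t j * (x + d))) - ∑ j ∈ s, a j * Real.cos (t j * (x - d))| ≤
      2 * ∑ j ∈ s, |Real.sin (t j * d)| := by
  rw [← Finset.sum_sub_distrib, Finset.mul_sum]
  refine (Finset.abs_sum_le_sum_abs _ _).trans (Finset.sum_le_sum fun j hj => ?_)
  rw [← mul_sub, show t j * (x + d) = t j * x + t j * d by ring,
    show t j * (x - d) = t j * x - t j * d by ring, Real.cos_add, Real.cos_sub,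
    show Real.cos (t j * x) * Real.cos (t j * d) - Real.sin (t j * x) * Real.sin (t j * d) -
      (Real.cos (t j * x) * Real.cos (t j * d) + Real.sin (t j * x) * Real.sin (t j * d)) =
      -2 * Real.sin (t j * x) * Real.sin (t j * d) by ring, abs_mul, abs_mul, abs_mul, abs_neg,
    abs_two]
  have := Real.abs_sin_le_one (t j * x)
  calc |a j| * (2 * |Real.sin (t j * x)| * |Real.sin (t j * d)|)
      ≤ 1 * (2 * 1 * |Real.sin (t j * d)|) := by gcongr; exact ha j hj
    _ = _ := by ring

end Vale.Agent.P105
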