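import Vale.Agent.P105.Defs

/-! Module interfaces (the targets of the separately written files). -/

noncomputable section

open Real

namespace Vale.Agent.P105

/-- Output of `Tower`, input of `GoodOfGadget`. -/
def SmallGadgets : Prop :=
  ∀ η : ℝ, 0 < η → ∃ (y : ℝ) (E : ℕ) (δ C Φ : ℝ), Gadget y E δ C Φ ∧ C ≤ 5 ∧ 0 < δ ∧ δ ≤ 1 ∧
    δ * ((E : ℝ) + 1) * Real.exp (2 * Φ) ≤ η

end Vale.Agent.P105
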