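import Vale.Agent.P105.Envelope
import Vale.Agent.P105.Interfaces

/-!
# P105: small gadgets give the `Good` property of `beta`

For a gadget `y` with small `δ (E + 1) exp (2 Φ)` take `x = y / 2` and all shifts `j < N`,
`N` about `(E + 1) / δ`: the products are at least `exp (-(Φ + 50000))` and each digit moves the
test sum by at most `O (E + 1)`.
-/

noncomputable section

open Real Finset

namespace Vale.Agent.P105

namespace GoodAux

theorem one_lt_beta : 1 < beta := by
  have h : (1 : ℝ) < √2 := by rw [Real.lt_sqrt zero_le_one]; norm_num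
  have h0 : 0 ≤ √(z1 ^ 2 - 4) := Real.sqrt_nonneg _
  rw [beta, lt_div_iff₀ two_pos]
  unfold z1 at h0 ⊢
  linarith

theorem tau_nonneg (y : ℝ) (i : ℤ) : 0 ≤ tau y i := abs_nonneg _

variable {y δ C Φ : ℝ} {E : ℕ}

theorem prod_abs_cos (h : Gadget y E δ C Φ) (j : ℤ) (M : ℕ) :
    ∏ i ∈ range M, |Real.cos (π * orb y (j - i))| =
      Real.exp (-∑ i ∈ range M, psi y (j - i)) := by
  rw [← Finset.sum_neg_distrib, Real.exp_sum]
  refine Finset.prod_congr rfl fun i _ => ?_
  rw [psi, neg_neg, Real.exp_log (abs_pos.mpr (h.cos_ne _))]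

/-- the effect of digit `i` on the test sum, every `i` -/
theorem sum_sin_le (h : Gadget y E δ C Φ) (hC : C ≤ 5) (N i : ℕ) :
    ∑ j ∈ range N, |Real.sin (π * orb y ((j : ℤ) - i))| ≤
      100 * (3 + δ * N) + 30 * ((E : ℝ) + 1) := by
  refine (Finset.sum_le_sum fun j _ => h.abs_sin_le _).trans ?_
  rw [← Finset.sum_filter_add_sum_filter_not (range N) (fun j => i ≤ j)]
  refine add_le_add ?_ ?_
  · refine le_trans (le_of_eq ?_) ((Finset.sum_le_sum_of_subset_of_nonneg
      (s := ((range N).filter (fun j => i ≤ j)).image (fun j => j - i)) ?_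
      (fun k _ _ => tau_nonneg y (k : ℤ))).trans (h.sum_tau_right hC N))
    · rw [Finset.sum_image]
      · refine Finset.sum_congr rfl fun j hj => ?_
        rw [Nat.cast_sub (Finset.mem_filter.mp hj).2]
      · intro a ha b hb hab
        have ha' := (Finset.mem_filter.mp ha).2
        have hb' := (Finset.mem_filter.mp hb).2
        simp only at hab
        omega
    · intro k hk
      obtain ⟨j, hj, rfl⟩ := Finset.mem_image.mp hk
      have := Finset.mem_range.mp (Finset.mem_filter.mp hj).1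
      exact Finset.mem_range.mpr (by omega)
  · refine le_trans (le_of_eq ?_) ((Finset.sum_le_sum_of_subset_of_nonneg
      (s := ((range N).filter (fun j => ¬ i ≤ j)).image (fun j => i - j)) ?_
      (fun k _ _ => tau_nonneg y (-(k : ℤ)))).trans (h.sum_tau_left hC (i + 1)))
    · rw [Finset.sum_image]
      · refine Finset.sum_congr rfl fun j hj => ?_
        have hj' : j ≤ i := by have := (Finset.mem_filter.mp hj).2; omega
        rw [Nat.cast_sub hj', neg_sub]
      · intro a ha b hb hab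
        have ha' := (Finset.mem_filter.mp ha).2
        have hb' := (Finset.mem_filter.mp hb).2
        simp only at hab
        omega
    · intro k hk
      obtain ⟨j, _, rfl⟩ := Finset.mem_image.mp hk
      exact Finset.mem_range.mpr (by omega)

/-- digits beyond the window act geometrically little -/
theorem sum_sin_tail (h : Gadget y E δ C Φ) (hC : C ≤ 5) (N k : ℕ) :
    ∑ j ∈ range N, |Real.sin (π * orb y ((j : ℤ) - ((N + E + k : ℕ) : ℤ)))| ≤
      20 / (beta - 1) * (beta⁻¹) ^ k := by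
  have hb := one_lt_beta
  have hb0 : (0 : ℝ) < beta := zero_lt_one.trans hb
  have key : ∀ j : ℕ, beta ^ ((E : ℤ) + ((j : ℤ) - ((N + E + k : ℕ) : ℤ))) =
      beta ^ j * ((beta ^ N)⁻¹ * (beta⁻¹) ^ k) := by
    intro j
    rw [show (E : ℤ) + ((j : ℤ) - ((N + E + k : ℕ) : ℤ)) = (j : ℤ) + (-(N : ℤ) + -(k : ℤ)) by
        push_cast; ring,
      zpow_add₀ hb0.ne', zpow_add₀ hb0.ne', zpow_natCast, zpow_neg, zpow_neg, zpow_natCast,
      zpow_natCast, inv_pow]
  calc ∑ j ∈ range N, |Real.sin (π * orb y ((j : ℤ) - ((N + E + k : ℕ) : ℤ)))|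
      ≤ ∑ j ∈ range N, 20 * (beta ^ j * ((beta ^ N)⁻¹ * (beta⁻¹) ^ k)) := by
        refine Finset.sum_le_sum fun j _ => ?_
        rw [← key j]
        exact (h.abs_sin_le _).trans (h.tau_left hC _)
    _ = 20 * ((∑ j ∈ range N, beta ^ j) * ((beta ^ N)⁻¹ * (beta⁻¹) ^ k)) := by
        rw [Finset.sum_mul, Finset.mul_sum]
    _ ≤ 20 / (beta - 1) * (beta⁻¹) ^ k := by
        rw [geom_sum_eq hb.ne']
        have hb1 : 0 < beta - 1 := sub_pos.mpr hb
        have hN : 0 < beta ^ N := pow_pos hb0 N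
        have e : 20 * ((beta ^ N - 1) / (beta - 1) * ((beta ^ N)⁻¹ * (beta⁻¹) ^ k)) =
            20 / (beta - 1) * (beta⁻¹) ^ k * ((beta ^ N - 1) * (beta ^ N)⁻¹) := by ring
        rw [e]
        refine mul_le_of_le_one_right (by positivity) ?_
        rw [sub_mul, mul_inv_cancel₀ hN.ne', one_mul]
        have : 0 ≤ (beta ^ N)⁻¹ := by positivity
        linarith

/-- the sum of squared effects -/
theorem sum_sq_le (h : Gadget y E δ C Φ) (hC : C ≤ 5) (N M : ℕ) :
    ∑ i ∈ range M, (∑ j ∈ range N, |Real.sin (π * orb y ((j : ℤ) - i))|) ^ 2 ≤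
      ((N : ℝ) + E) * (100 * (3 + δ * N) + 30 * ((E : ℝ) + 1)) ^ 2 +
        400 / (beta - 1) ^ 2 * (1 - (beta⁻¹) ^ 2)⁻¹ := by
  have hb := one_lt_beta
  have hb0 : (0 : ℝ) < beta := zero_lt_one.trans hb
  set c : ℕ → ℝ := fun i => (∑ j ∈ range N, |Real.sin (π * orb y ((j : ℤ) - i))|) ^ 2 with hc
  have h1 : ∑ i ∈ range M, c i ≤ ∑ i ∈ range (N + E + M), c i :=
    Finset.sum_le_sum_of_subset_of_nonneg (Finset.range_mono (by omega))
      fun i _ _ => sq_nonneg _
  refine h1.trans ?_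
  rw [Finset.sum_range_add]
  refine add_le_add ?_ ?_
  · refine (Finset.sum_le_card_nsmul _ _
      ((100 * (3 + δ * N) + 30 * ((E : ℝ) + 1)) ^ 2) fun i _ => ?_).trans ?_
    · exact pow_le_pow_left₀ (Finset.sum_nonneg fun _ _ => abs_nonneg _) (sum_sin_le h hC N i) 2
    · rw [Finset.card_range, nsmul_eq_mul]; push_cast; rfl
  · have hr0 : (0 : ℝ) ≤ (beta⁻¹) ^ 2 := by positivity
    have hr1 : (beta⁻¹) ^ 2 < 1 :=
      pow_lt_one₀ (by positivity) (inv_lt_one_of_one_lt₀ hb) two_ne_zero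
    calc ∑ k ∈ range M, c (N + E + k)
        ≤ ∑ k ∈ range M, 400 / (beta - 1) ^ 2 * ((beta⁻¹) ^ 2) ^ k := by
          refine Finset.sum_le_sum fun k _ => ?_
          have := pow_le_pow_left₀ (Finset.sum_nonneg fun _ _ => abs_nonneg _)
            (sum_sin_tail h hC N k) 2
          refine this.trans (le_of_eq ?_)
          rw [mul_pow, div_pow, pow_right_comm]; norm_num
      _ = 400 / (beta - 1) ^ 2 * ∑ k ∈ range M, ((beta⁻¹) ^ 2) ^ k := (Finset.mul_sum ..).symm
      _ ≤ 400 / (beta - 1) ^ 2 * (1 - (beta⁻¹) ^ 2)⁻¹ := by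
          refine mul_le_mul_of_nonneg_left ?_ (by positivity)
          rw [geom_sum_eq hr1.ne, ← neg_div_neg_eq, neg_sub, neg_sub, div_eq_mul_inv]
          refine mul_le_of_le_one_left (inv_nonneg.mpr (sub_nonneg.mpr hr1.le)) ?_
          linarith [pow_nonneg hr0 M]

end GoodAux

open GoodAux

/-- Gadgets with small `δ (E + 1) exp (2 Φ)` give `Good beta`. -/
theorem good_of_smallGadgets (H : SmallGadgets) : Good beta := by
  intro ε hε
  have hb := one_lt_beta
  set G := 400 / (beta - 1) ^ 2 * (1 - (beta⁻¹) ^ 2)⁻¹ with hG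
  have hG0 : 0 ≤ G := by
    have : (beta⁻¹) ^ 2 ≤ 1 :=
      pow_le_one₀ (by positivity) (inv_le_one_of_one_le₀ hb.le)
    have : 0 ≤ 1 - (beta⁻¹) ^ 2 := sub_nonneg.mpr this
    positivity
  set K := Real.exp (-100000) with hK
  have hK0 : 0 < K := Real.exp_pos _
  set D := 720000 + G + 1 with hD
  obtain ⟨η, hη⟩ : ∃ η, η = min 1 (ε * K / D) := ⟨_, rfl⟩
  have hη0 : 0 < η := by rw [hη]; positivity
  obtain ⟨y, E, δ, C, Φ, hg, hC, hδ0, hδ1, hsmall⟩ := H η hη0
  have hΦ := hg.cost_nonneg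
  set e := ((E : ℝ) + 1) with he
  have he1 : 1 ≤ e := by simp [he]
  have hex : 1 ≤ Real.exp (2 * Φ) := Real.one_le_exp (by linarith)
  have hde : δ * e ≤ 1 := by
    have : δ * e ≤ δ * e * Real.exp (2 * Φ) :=
      le_mul_of_one_le_right (by positivity) hex
    linarith [hη ▸ min_le_left (1 : ℝ) (ε * K / D)]
  set N := ⌈e / δ⌉₊ with hN
  have hNlo : e ≤ δ * N := by
    have := Nat.le_ceil (e / δ)
    rw [div_le_iff₀ hδ0] at this
    linarith
  have hNhi : δ * N ≤ e + 1 := by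
    have := (Nat.ceil_lt_add_one (show (0 : ℝ) ≤ e / δ by positivity)).le
    calc δ * N ≤ δ * (e / δ + 1) := mul_le_mul_of_nonneg_left this hδ0.le
      _ ≤ e + 1 := by rw [mul_add, mul_div_cancel₀ _ hδ0.ne']; linarith
  have hN0 : 0 < N := Nat.ceil_pos.mpr (by positivity)
  have hNE : (E : ℝ) + 1 ≤ N := hNlo.trans (mul_le_of_le_one_left (by positivity) hδ1)
  -- the threshold
  set T := Real.exp (-(Φ + 50000)) with hT
  have hT2 : T ^ 2 = K / Real.exp (2 * Φ) := by
    rw [hT, hK, ← Real.exp_nat_mul, ← Real.exp_sub]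
    congr 1
    push_cast
    ring
  have hmain : D * (δ * e) ≤ ε * T ^ 2 := by
    rw [hT2, ← mul_div_assoc, le_div_iff₀ (Real.exp_pos _)]
    have h2 : δ * e * Real.exp (2 * Φ) ≤ ε * K / D :=
      hsmall.trans (hη ▸ min_le_right _ _)
    rw [le_div_iff₀ (by positivity)] at h2
    linarith
  have hmain' : D * e ^ 2 ≤ ε * T ^ 2 * N := by
    calc D * e ^ 2 = D * e * e := by ring
      _ ≤ D * e * (δ * N) := mul_le_mul_of_nonneg_left hNlo (by positivity)
      _ = D * (δ * e) * N := by ring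
      _ ≤ ε * T ^ 2 * N := mul_le_mul_of_nonneg_right hmain (Nat.cast_nonneg _)
  have he2 : (1 : ℝ) ≤ e ^ 2 := one_le_pow₀ he1
  have horb : ∀ (j i : ℕ), 2 * π * (y / 2) * beta ^ ((j : ℤ) - i) = π * orb y ((j : ℤ) - i) := by
    intro j i; rw [orb]; ring
  refine ⟨y / 2, N, T, ?_, hN0, Real.exp_pos _, ?_, ?_, ?_⟩
  · rw [abs_div, abs_two]; linarith [hg.two_le]
  · intro M j hj
    simp only [horb]
    rw [prod_abs_cos hg, hT, Real.exp_le_exp, neg_le_neg_iff]
    refine (hg.cost_shift hC j M).trans ?_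
    have hjN : δ ^ 2 * (j : ℝ) ≤ 2 := by
      calc δ ^ 2 * (j : ℝ) ≤ δ ^ 2 * N := by
            refine mul_le_mul_of_nonneg_left ?_ (sq_nonneg _)
            exact_mod_cast hj.le
        _ = δ * (δ * N) := by ring
        _ ≤ δ * (e + 1) := mul_le_mul_of_nonneg_left hNhi hδ0.le
        _ ≤ 2 := by linarith [mul_le_one₀ hδ1 zero_le_one le_rfl]
    linarith
  · intro M
    simp only [horb]
    refine (sum_sq_le hg hC N M).trans ?_
    have hB : 100 * (3 + δ * N) + 30 * e ≤ 600 * e := by linarith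
    have h1 : ((N : ℝ) + E) * (100 * (3 + δ * N) + 30 * e) ^ 2 ≤ (2 * N) * (600 * e) ^ 2 :=
      mul_le_mul (by linarith) (pow_le_pow_left₀ (by positivity) hB 2) (sq_nonneg _) (by positivity)
    have hN1 : (1 : ℝ) ≤ N := by exact_mod_cast hN0
    have h2 : G ≤ G * ((N : ℝ) * e ^ 2) := le_mul_of_one_le_right hG0 (one_le_mul_of_one_le_of_one_le hN1 he2)
    calc _ ≤ (2 * (N : ℝ)) * (600 * e) ^ 2 + G := add_le_add h1 le_rfl
      _ ≤ D * e ^ 2 * N := by
          rw [hD]; nlinarith [mul_nonneg (Nat.cast_nonneg (α := ℝ) N) (sq_nonneg e), h2]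
      _ ≤ ε * T ^ 2 * N * N := mul_le_mul_of_nonneg_right hmain' (Nat.cast_nonneg _)
      _ = ε * T ^ 2 * (N : ℝ) ^ 2 := by ring
  · have : (1 : ℝ) ≤ D := by rw [hD]; linarith
    exact (one_le_mul_of_one_le_of_one_le this he2).trans hmain'

end Vale.Agent.P105
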