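import Vale.Agent.P105.Defs

/-!
# P105: the rotation by `th`

Distance to the nearest integer is written `|x - round x|`.
-/

noncomputable section

open Real

namespace Vale.Agent.P105

/-- distance to the nearest integer -/
def ndist (x : ℝ) : ℝ := |x - round x|

lemma ndist_nonneg (x : ℝ) : 0 ≤ ndist x := abs_nonneg _

lemma ndist_le (x : ℝ) (z : ℤ) : ndist x ≤ |x - z| := round_le x z

lemma ndist_le_half (x : ℝ) : ndist x ≤ 1 / 2 := abs_sub_round x

lemma ndist_natCast_mul_le (k : ℕ) (x : ℝ) : ndist ((k : ℝ) * x) ≤ k * ndist x := by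
  refine (ndist_le _ ((k : ℤ) * round x)).trans (le_of_eq ?_)
  push_cast
  rw [← mul_sub, abs_mul, Nat.abs_cast]
  rfl

lemma abs_sin_pi_mul_le (x : ℝ) : |Real.sin (π * x)| ≤ π * ndist x := by
  have h : π * x = π * (x - round x) + (round x : ℤ) * π := by ring
  rw [h, Real.sin_add_int_mul_pi, abs_mul, abs_neg_one_zpow, one_mul]
  refine Real.abs_sin_le_abs.trans (le_of_eq ?_)
  rw [abs_mul, abs_of_pos Real.pi_pos]
  rfl

/-- moving `L = k q` steps changes the circle coordinate by at most `2 π k |q th|_ℤ` -/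
lemma abs_cos_rot_sub_le (k q : ℕ) (a : ℝ) :
    |Real.cos (a + om * ((k * q : ℕ) : ℝ)) - Real.cos a| ≤ 2 * π * k * ndist (q * th) := by
  have h : (a + om * ((k * q : ℕ) : ℝ) - a) / 2 = π * ((k : ℝ) * ((q : ℝ) * th)) := by
    unfold th
    have := Real.pi_pos
    push_cast
    field_simp
    ring
  rw [Real.cos_sub_cos, h, abs_mul, abs_mul, abs_neg, abs_two]
  have h1 := Real.abs_sin_le_one ((a + om * ((k * q : ℕ) : ℝ) + a) / 2)
  have h2 := (abs_sin_pi_mul_le ((k : ℝ) * ((q : ℝ) * th))).trans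
    (mul_le_mul_of_nonneg_left (ndist_natCast_mul_le k ((q : ℝ) * th)) Real.pi_pos.le)
  calc 2 * |Real.sin ((a + om * ((k * q : ℕ) : ℝ) + a) / 2)| *
        |Real.sin (π * ((k : ℝ) * ((q : ℝ) * th)))|
      ≤ 2 * 1 * (π * ((k : ℝ) * ndist ((q : ℝ) * th))) := by gcongr
    _ = _ := by ring

/-- Dirichlet: the least good denominator. -/
lemma exists_least (x : ℝ) {Q : ℕ} (hQ : 0 < Q) :
    ∃ q : ℕ, 0 < q ∧ q ≤ Q ∧ ndist (q * x) ≤ 1 / Q ∧
      ∀ m : ℕ, 0 < m → ndist (m * x) ≤ 1 / Q → q ≤ m := by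
  classical
  obtain ⟨k, hk, hkQ, hd⟩ := Real.exists_nat_abs_mul_sub_round_le x hQ
  have hk' : 0 < k ∧ ndist (k * x) ≤ 1 / Q := by
    refine ⟨hk, hd.trans ?_⟩
    have : (0 : ℝ) < Q := by exact_mod_cast hQ
    gcongr
    linarith
  have hex : ∃ m : ℕ, 0 < m ∧ ndist (m * x) ≤ 1 / Q := ⟨k, hk'⟩
  exact ⟨Nat.find hex, (Nat.find_spec hex).1, (Nat.find_min' hex hk').trans hkQ,
    (Nat.find_spec hex).2, fun m hm h => Nat.find_min' hex ⟨hm, h⟩⟩

/-- The good denominators grow along the tower. -/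
lemma le_two_mul_next (x : ℝ) {Q Qn q qn : ℕ} (hQ : 0 < Q) (hQQn : Q ≤ Qn) (hq : 0 < q)
    (hle : ndist (q * x) ≤ 1 / Q) (hmin : ∀ m : ℕ, 0 < m → ndist (m * x) ≤ 1 / Q → q ≤ m)
    (hbig : 1 / (Qn : ℝ) < ndist (q * x)) (hqn : 0 < qn) (hlen : ndist (qn * x) ≤ 1 / Qn) :
    Q ≤ 2 * qn := by
  have hQr : (0 : ℝ) < Q := by exact_mod_cast hQ
  have hQQnr : (Q : ℝ) ≤ Qn := by exact_mod_cast hQQn
  have hqn_le : q ≤ qn := hmin qn hqn (hlen.trans (by gcongr))
  by_contra hlt
  push Not at hlt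
  have hlt' : 2 * (qn : ℝ) < Q := by exact_mod_cast hlt
  have hq' : (q : ℝ) ≤ qn := by exact_mod_cast hqn_le
  set p : ℤ := round ((q : ℝ) * x)
  set p' : ℤ := round ((qn : ℝ) * x)
  have hsmall : |((qn : ℤ) * p - (q : ℤ) * p' : ℤ)| < 1 := by
    have e : (((qn : ℤ) * p - (q : ℤ) * p' : ℤ) : ℝ)
        = (q : ℝ) * ((qn : ℝ) * x - p') - (qn : ℝ) * ((q : ℝ) * x - p) := by
      push_cast; ring
    have hb : |(((qn : ℤ) * p - (q : ℤ) * p' : ℤ) : ℝ)| < 1 := by
      rw [e]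
      calc _ ≤ |(q : ℝ) * ((qn : ℝ) * x - p')| + |(qn : ℝ) * ((q : ℝ) * x - p)| := abs_sub _ _
        _ = (q : ℝ) * ndist (qn * x) + (qn : ℝ) * ndist (q * x) := by
          rw [abs_mul, abs_mul, Nat.abs_cast, Nat.abs_cast]; rfl
        _ ≤ (qn : ℝ) * (1 / Q) + (qn : ℝ) * (1 / Q) := by
          gcongr
          · exact ndist_nonneg _
          · exact hlen.trans (by gcongr)
        _ = 2 * (qn : ℝ) / Q := by ring
        _ < 1 := by rw [div_lt_one hQr]; exact hlt'
    exact_mod_cast hb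
  rw [Int.abs_lt_one_iff, sub_eq_zero] at hsmall
  have hpp : (qn : ℝ) * p = (q : ℝ) * p' := by exact_mod_cast hsmall
  have hscale : (q : ℝ) * ndist (qn * x) = (qn : ℝ) * ndist (q * x) := by
    calc (q : ℝ) * ndist (qn * x) = |(q : ℝ) * ((qn : ℝ) * x - p')| := by
          rw [abs_mul, Nat.abs_cast]; rfl
      _ = |(qn : ℝ) * ((q : ℝ) * x - p)| := by
          congr 1; linear_combination hpp
      _ = _ := by rw [abs_mul, Nat.abs_cast]; rfl
  have hqr : (0 : ℝ) < q := by exact_mod_cast hq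
  have : ndist (q * x) ≤ ndist (qn * x) := by
    have h0 := mul_le_mul_of_nonneg_right hq' (ndist_nonneg (q * x))
    rw [← hscale] at h0
    exact le_of_mul_le_mul_left h0 hqr
  linarith

lemma one_lt_beta' : 1 < beta := by
  have h2 : 1 < √2 := Real.lt_sqrt_of_sq_lt (by norm_num)
  have := Real.sqrt_nonneg (z1 ^ 2 - 4)
  unfold beta
  have : 2 < z1 := by unfold z1; linarith
  linarith

lemma beta_add_inv : beta + beta⁻¹ = z1 := by
  have h2 : 1 < √2 := Real.lt_sqrt_of_sq_lt (by norm_num)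
  have hz : (4 : ℝ) ≤ z1 ^ 2 := by unfold z1; nlinarith
  have hs := Real.sq_sqrt (sub_nonneg.2 hz)
  have hb : beta ≠ 0 := ne_of_gt (lt_trans one_pos one_lt_beta')
  have hq : beta * beta + 1 = z1 * beta := by
    unfold beta
    linear_combination hs / 4
  field_simp
  linear_combination hq

lemma two_cos_om : 2 * Real.cos om = z2 := by
  have h2 : √2 ≤ 2 := (Real.sqrt_le_left (by norm_num)).2 (by norm_num)
  have h0 := Real.sqrt_nonneg (2 : ℝ)
  unfold om
  rw [Real.cos_arccos (by unfold z2; linarith) (by unfold z2; linarith)]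
  ring

/-- `2 cos (n om)` and `beta^n + beta^-n` are Galois conjugate in `ℤ[√2]`. -/
lemma exists_conj_pair (n : ℕ) :
    ∃ a b : ℤ, 2 * Real.cos (n * om) = a + b * √2 ∧ beta ^ n + beta⁻¹ ^ n = a - b * √2 := by
  induction n using Nat.twoStepInduction with
  | zero => exact ⟨2, 0, by simp, by norm_num⟩
  | one =>
    refine ⟨1, -1, ?_, ?_⟩
    · simp only [Nat.cast_one, one_mul, two_cos_om, z2]; push_cast; ring
    · simp only [pow_one, beta_add_inv, z1]; push_cast; ring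
  | more n ih1 ih2 =>
    obtain ⟨a, b, h1, h2⟩ := ih1
    obtain ⟨c, d, h3, h4⟩ := ih2
    refine ⟨c - 2 * d - a, d - c - b, ?_, ?_⟩
    · have hc : Real.cos (((n + 2 : ℕ) : ℝ) * om)
          = 2 * Real.cos om * Real.cos (((n + 1 : ℕ) : ℝ) * om) - Real.cos ((n : ℝ) * om) := by
        have e1 := Real.cos_add (((n + 1 : ℕ) : ℝ) * om) om
        have e2 := Real.cos_sub (((n + 1 : ℕ) : ℝ) * om) om
        have a1 : ((n + 1 : ℕ) : ℝ) * om + om = ((n + 2 : ℕ) : ℝ) * om := by push_cast; ring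
        have a2 : ((n + 1 : ℕ) : ℝ) * om - om = (n : ℝ) * om := by push_cast; ring
        rw [a1] at e1; rw [a2] at e2
        linarith
      have hs : √2 * √2 = (2 : ℝ) := Real.mul_self_sqrt (by norm_num)
      rw [hc, two_cos_om]
      unfold z2
      push_cast at h3 h1 ⊢
      linear_combination (1 - √2) * h3 - h1 - (d : ℝ) * hs
    · have hb : beta * beta⁻¹ = 1 := mul_inv_cancel₀ (ne_of_gt (lt_trans one_pos one_lt_beta'))
      have hs : √2 * √2 = (2 : ℝ) := Real.mul_self_sqrt (by norm_num)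
      have e : beta ^ (n + 2) + beta⁻¹ ^ (n + 2)
          = (beta + beta⁻¹) * (beta ^ (n + 1) + beta⁻¹ ^ (n + 1)) - (beta ^ n + beta⁻¹ ^ n) := by
        linear_combination -(beta ^ n + beta⁻¹ ^ n) * hb
      rw [e, h4, h2, beta_add_inv]
      unfold z1
      push_cast
      linear_combination -(d : ℝ) * hs

/-- the circle rotation is irrational -/
lemma irrational_th : Irrational th := by
  rintro ⟨r, hr⟩
  have hpi := Real.pi_ne_zero
  have hden : (r.den : ℝ) * om = (r.num : ℤ) * (2 * π) := by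
    have h1 : om = (r : ℝ) * (2 * π) := by rw [hr]; unfold th; field_simp
    rw [h1, ← mul_assoc]
    congr 1
    rw [Rat.cast_def]
    field_simp
  have hcos : Real.cos ((r.den : ℝ) * om) = 1 := by
    rw [hden]; exact Real.cos_int_mul_two_pi _
  obtain ⟨a, b, h1, h2⟩ := exists_conj_pair r.den
  rw [hcos, mul_one] at h1
  have hb0 : b = 0 := by
    by_contra hb
    have hbr : (b : ℝ) ≠ 0 := by exact_mod_cast hb
    refine irrational_sqrt_two ⟨((2 - a) / b : ℚ), ?_⟩
    push_cast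
    field_simp
    linarith
  subst hb0
  simp only [Int.cast_zero, zero_mul, add_zero, sub_zero] at h1 h2
  rw [← h1] at h2
  have hpow : 1 < beta ^ r.den := one_lt_pow₀ one_lt_beta' r.den_ne_zero
  rw [inv_pow] at h2
  have hp0 : beta ^ r.den ≠ 0 := by linarith
  have hsq : (beta ^ r.den - 1) ^ 2 = 0 := by
    field_simp at h2
    linear_combination h2
  rw [pow_eq_zero_iff two_ne_zero] at hsq
  linarith

lemma ndist_th_pos {q : ℕ} (hq : 0 < q) : 0 < ndist (q * th) := by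
  refine abs_pos.2 (sub_ne_zero.2 fun h => ?_)
  exact (irrational_th.natCast_mul hq.ne') ⟨(round ((q : ℝ) * th) : ℚ), by rw [h]; simp⟩

end Vale.Agent.P105
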