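import Vale.Agent.P105.Defs
import Vale.Agent.P105.Base
import Vale.Agent.P105.Flip

/-! `Good b` forces singularity of the Bernoulli convolution with ratio `b⁻¹`. -/

noncomputable section

open MeasureTheory Filter Topology Real Finset

namespace Vale.Agent.P105

lemma abs_integral_cos_interval_le {L w : ℝ} (hw : w ≠ 0) :
    |∫ y in (-L)..L, Real.cos (w * y)| ≤ 2 / |w| := by
  rw [intervalIntegral.integral_comp_mul_left (f := Real.cos) hw, integral_cos, smul_eq_mul,
    abs_mul, abs_inv, div_eq_inv_mul]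
  refine mul_le_mul_of_nonneg_left ((abs_sub _ _).trans ?_) (by positivity)
  linarith [abs_sin_le_one (w * L), abs_sin_le_one (w * -L)]

lemma abs_integral_cos_mul_cos_le {L a c : ℝ} (h : |c| < |a|) :
    |∫ y in (-L)..L, Real.cos (a * y) * Real.cos (c * y)| ≤ 2 / (|a| - |c|) := by
  have d1 : |a| - |c| ≤ |a - c| := abs_sub_abs_le_abs_sub a c
  have d2 : |a| - |c| ≤ |a + c| := by
    simpa [sub_neg_eq_add] using abs_sub_abs_le_abs_sub a (-c)
  have hpos : 0 < |a| - |c| := by linarith
  have n1 : a - c ≠ 0 := abs_pos.mp (hpos.trans_le d1)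
  have n2 : a + c ≠ 0 := abs_pos.mp (hpos.trans_le d2)
  have e : ∀ y : ℝ, Real.cos (a * y) * Real.cos (c * y)
      = 2⁻¹ * (Real.cos ((a - c) * y) + Real.cos ((a + c) * y)) := fun y => by
    rw [sub_mul, add_mul, Real.cos_sub, Real.cos_add]; ring
  simp_rw [e]
  rw [intervalIntegral.integral_const_mul,
    intervalIntegral.integral_add ((by fun_prop : Continuous _).intervalIntegrable _ _)
      ((by fun_prop : Continuous _).intervalIntegrable _ _), abs_mul]
  have b1 := (abs_integral_cos_interval_le (L := L) n1).trans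
    (div_le_div_of_nonneg_left two_pos.le hpos d1)
  have b2 := (abs_integral_cos_interval_le (L := L) n2).trans
    (div_le_div_of_nonneg_left two_pos.le hpos d2)
  refine (mul_le_mul_of_nonneg_left ((abs_add_le _ _).trans (add_le_add b1 b2))
    (abs_nonneg _)).trans_eq ?_
  rw [abs_of_nonneg (by norm_num : (0 : ℝ) ≤ 2⁻¹)]; ring

/-- The trigonometric sum of the test. -/
def trig (b x : ℝ) (σ : ℕ → ℝ) (N : ℕ) (y : ℝ) : ℝ :=
  ∑ j ∈ range N, σ j * Real.cos (2 * π * x * b ^ j * y)

lemma continuous_trig (b x : ℝ) (σ : ℕ → ℝ) (N : ℕ) : Continuous (trig b x σ N) := by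
  unfold trig; fun_prop

lemma abs_trig_le (b x : ℝ) {σ : ℕ → ℝ} (hσ : ∀ j, |σ j| ≤ 1) (N : ℕ) (y : ℝ) :
    |trig b x σ N y| ≤ N := by
  refine (abs_sum_le_sum_abs _ _).trans ((Finset.sum_le_card_nsmul _ _ 1 fun j _ => ?_).trans_eq ?_)
  · rw [abs_mul]; exact mul_le_one₀ (hσ j) (abs_nonneg _) (abs_cos_le_one _)
  · simp

lemma integral_trig_sq_le {b x L : ℝ} (hb : 1 < b) (hx : 1 ≤ |x|) (hL : 0 ≤ L) {σ : ℕ → ℝ}
    (hσ : ∀ j, |σ j| ≤ 1) (N : ℕ) :
    ∫ y in (-L)..L, trig b x σ N y ^ 2 ≤ (2 * L + 4 * (b / (b - 1) ^ 2)) * N := by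
  induction N with
  | zero => simp [trig]
  | succ n ih =>
    set f : ℕ → ℝ → ℝ := fun j y => σ j * Real.cos (2 * π * x * b ^ j * y) with hf
    have fc : ∀ j, Continuous (f j) := fun j => by simp only [hf]; fun_prop
    have hn : ∀ y, trig b x σ (n + 1) y ^ 2
        = trig b x σ n y ^ 2 + ((∑ k ∈ range n, 2 * (f k y * f n y)) + f n y ^ 2) := fun y => by
      have e : trig b x σ (n + 1) y = trig b x σ n y + f n y := Finset.sum_range_succ _ _
      rw [e, ← Finset.mul_sum, ← Finset.sum_mul]
      change _ = trig b x σ n y ^ 2 + (2 * (trig b x σ n y * f n y) + f n y ^ 2)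
      ring
    have c1 : Continuous fun y => trig b x σ n y ^ 2 := (continuous_trig _ _ _ _).pow 2
    have c2 : Continuous fun y => ∑ k ∈ range n, 2 * (f k y * f n y) :=
      continuous_finsetSum _ fun k _ => continuous_const.mul ((fc k).mul (fc n))
    have c3 : Continuous fun y => f n y ^ 2 := (fc n).pow 2
    simp_rw [hn]
    rw [intervalIntegral.integral_add (c1.intervalIntegrable _ _)
        ((by fun_prop : Continuous fun y => (∑ k ∈ range n, 2 * (f k y * f n y)) + f n y ^ 2).intervalIntegrable _ _),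
      intervalIntegral.integral_add (c2.intervalIntegrable _ _) (c3.intervalIntegrable _ _),
      intervalIntegral.integral_finsetSum
        (f := fun k y => 2 * (f k y * f n y))
        (fun k _ => (continuous_const.mul ((fc k).mul (fc n))).intervalIntegrable _ _)]
    have diag : ∫ y in (-L)..L, f n y ^ 2 ≤ 2 * L := by
      have := intervalIntegral.norm_integral_le_of_norm_le_const (a := -L) (b := L) (C := (1 : ℝ))
        (f := fun y => f n y ^ 2) fun y _ => by
          have h : |f n y| ≤ 1 := by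
            simp only [hf, abs_mul]; exact mul_le_one₀ (hσ n) (abs_nonneg _) (abs_cos_le_one _)
          rw [Real.norm_eq_abs, abs_pow]; exact pow_le_one₀ (abs_nonneg _) h
      rw [Real.norm_eq_abs, sub_neg_eq_add, abs_of_nonneg (by linarith : 0 ≤ L + L)] at this
      linarith [le_abs_self (∫ y in (-L)..L, f n y ^ 2)]
    have hb1 : 0 < b - 1 := by linarith
    have cross : ∀ k ∈ range n, ∫ y in (-L)..L, 2 * (f k y * f n y)
        ≤ 4 * (b / (b - 1)) / b ^ n := by
      intro k hk
      have hkn : k < n := Finset.mem_range.mp hk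
      have hpow : b ^ k ≤ b ^ n / b := by
        rw [le_div_iff₀ (by linarith), ← pow_succ]
        exact pow_le_pow_right₀ hb.le hkn
      set A := 2 * π * x * b ^ n with hA
      set C := 2 * π * x * b ^ k with hC
      have hgap : (b - 1) / b * b ^ n ≤ |A| - |C| := by
        have e : |A| - |C| = 2 * π * |x| * (b ^ n - b ^ k) := by
          simp only [hA, hC, abs_mul, abs_two, abs_of_pos Real.pi_pos,
            abs_of_pos (pow_pos (zero_lt_one.trans hb) _)]
          ring
        rw [e]
        have h1 : (b - 1) / b * b ^ n ≤ b ^ n - b ^ k := by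
          have : (b - 1) / b * b ^ n = b ^ n - b ^ n / b := by field_simp
          linarith
        have h2 : 1 ≤ 2 * π * |x| := by nlinarith [Real.pi_gt_three]
        have h3 : 0 ≤ b ^ n - b ^ k := le_trans (by positivity) h1
        nlinarith
      have hpos : 0 < (b - 1) / b * b ^ n := by positivity
      have key := (abs_integral_cos_mul_cos_le (L := L) (a := A) (c := C) (by linarith)).trans
        (div_le_div_of_nonneg_left two_pos.le hpos hgap)
      have e : ∀ y, 2 * (f k y * f n y)
          = (2 * σ k * σ n) * (Real.cos (A * y) * Real.cos (C * y)) := fun y => by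
        simp only [hf, hA, hC]; ring
      simp_rw [e]
      rw [intervalIntegral.integral_const_mul]
      refine (le_abs_self _).trans ?_
      rw [abs_mul, abs_mul, abs_mul, abs_two]
      calc 2 * |σ k| * |σ n| * |∫ y in (-L)..L, Real.cos (A * y) * Real.cos (C * y)|
          ≤ 2 * 1 * 1 * (2 / ((b - 1) / b * b ^ n)) := by
            gcongr
            · exact hσ k
            · exact hσ n
        _ = _ := by field_simp; ring
    have hsum : ∑ k ∈ range n, ∫ y in (-L)..L, 2 * (f k y * f n y)
        ≤ 4 * (b / (b - 1) ^ 2) := by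
      refine (Finset.sum_le_card_nsmul _ _ _ cross).trans ?_
      have hbern : (n : ℝ) * (b - 1) ≤ b ^ n := by
        have := one_add_mul_sub_le_pow (by linarith : -1 ≤ b) n
        linarith
      rw [Finset.card_range, nsmul_eq_mul]
      have hbn : 0 < b ^ n := by positivity
      calc (n : ℝ) * (4 * (b / (b - 1)) / b ^ n)
          = ((n : ℝ) * (b - 1) / b ^ n) * (4 * (b / (b - 1) ^ 2)) := by field_simp
        _ ≤ 1 * (4 * (b / (b - 1) ^ 2)) :=
          mul_le_mul_of_nonneg_right ((div_le_one hbn).mpr hbern) (by positivity)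
        _ = _ := one_mul _
    push_cast
    linarith

/-- Good data force mutual singularity with Lebesgue measure. -/
theorem singular_of_good {b : ℝ} (hb : 1 < b) (h : Good b) :
    bconv b⁻¹ ⟂ₘ volume := by
  have hb0 : 0 < b := zero_lt_one.trans hb
  have l0 : 0 < b⁻¹ := inv_pos.mpr hb0
  have l1 : b⁻¹ < 1 := inv_lt_one_of_one_lt₀ hb
  have hP := isProbability_bconv l0.le l1
  set L : ℝ := 1 / (1 - b⁻¹) with hLdef
  have hL : 0 ≤ L := div_nonneg one_pos.le (by linarith)
  choose x N T hx hN hT hprod hsin hbig using fun n : ℕ =>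
    h (1 / ((n : ℝ) + 1)) (by positivity)
  -- the means of the single terms
  set m : ℕ → ℕ → ℝ := fun n j => ∫ y, Real.cos (2 * π * x n * b ^ j * y) ∂bconv b⁻¹ with hm
  have mge : ∀ n, ∀ j < N n, T n ≤ |m n j| := by
    intro n j hj
    refine ge_of_tendsto ((tendsto_prod_cos l0.le l1 (2 * π * x n * b ^ j)).abs)
      (Filter.Eventually.of_forall fun M => ?_)
    refine (hprod n M j hj).trans (le_of_eq ?_)
    rw [Finset.abs_prod]
    refine Finset.prod_congr rfl fun i _ => ?_
    rw [zpow_sub₀ hb0.ne', zpow_natCast, zpow_natCast, inv_pow, div_eq_mul_inv, ← mul_assoc]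
  set σ : ℕ → ℕ → ℝ := fun n j => if 0 ≤ m n j then 1 else -1 with hσdef
  have hσ : ∀ n j, |σ n j| ≤ 1 := fun n j => by simp only [hσdef]; split_ifs <;> simp
  have hσm : ∀ n j, σ n j * m n j = |m n j| := fun n j => by
    simp only [hσdef]; split_ifs with h0
    · rw [one_mul, abs_of_nonneg h0]
    · rw [abs_of_neg (not_le.mp h0)]; ring
  set g : ℕ → ℝ → ℝ := fun n => trig b (x n) (σ n) (N n) with hg
  have gc : ∀ n, Continuous (g n) := fun n => continuous_trig _ _ _ _
  have gb : ∀ n y, |g n y| ≤ N n := fun n y => abs_trig_le _ _ (hσ n) _ y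
  have gi : ∀ n, Integrable (g n) (bconv b⁻¹) := fun n =>
    (integrable_const (N n : ℝ)).mono' (gc n).aestronglyMeasurable (ae_of_all _ (gb n))
  have g2i : ∀ n, Integrable (fun y => g n y ^ 2) (bconv b⁻¹) := fun n =>
    (integrable_const ((N n : ℝ) ^ 2)).mono' ((gc n).pow 2).aestronglyMeasurable
      (ae_of_all _ fun y => by
        rw [Real.norm_eq_abs, abs_pow]; exact pow_le_pow_left₀ (abs_nonneg _) (gb n y) 2)
  set μ : ℕ → ℝ := fun n => ∫ y, g n y ∂bconv b⁻¹ with hμ
  have μge : ∀ n, T n * N n ≤ μ n := fun n => by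
    have : μ n = ∑ j ∈ range (N n), σ n j * m n j := by
      simp only [hμ, hg, trig, hm]
      rw [integral_finsetSum _ fun j _ => ?_]
      · exact Finset.sum_congr rfl fun j _ => integral_const_mul _ _
      · refine Integrable.const_mul ((integrable_const (1 : ℝ)).mono' (by fun_prop)
          (ae_of_all _ fun y => ?_)) _
        rw [Real.norm_eq_abs]; exact abs_cos_le_one _
    rw [this]
    calc T n * N n = ∑ j ∈ range (N n), T n := by simp [mul_comm]
      _ ≤ _ := Finset.sum_le_sum fun j hj => by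
          rw [hσm]; exact mge n j (Finset.mem_range.mp hj)
  have μpos : ∀ n, 0 < μ n := fun n =>
    lt_of_lt_of_le (mul_pos (hT n) (Nat.cast_pos.mpr (hN n))) (μge n)
  have var : ∀ n, ∫ y, g n y ^ 2 ∂bconv b⁻¹
      ≤ μ n ^ 2 + 1 / ((n : ℝ) + 1) * T n ^ 2 * (N n : ℝ) ^ 2 := by
    intro n
    refine (bconv_second_moment_le l0.le l1 (gc n) (gb n)
      (c := fun i => 2 * ∑ j ∈ range (N n), |Real.sin (2 * π * x n * b ^ ((j : ℤ) - (i : ℤ)))|)
      (B := 4 * (1 / ((n : ℝ) + 1) * T n ^ 2 * (N n : ℝ) ^ 2)) ?_ ?_).trans_eq (by simp [hμ])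
    · intro i y
      simp only [hg, trig, ← Finset.sum_sub_distrib, Finset.mul_sum]
      refine (abs_sum_le_sum_abs _ _).trans (Finset.sum_le_sum fun j _ => ?_)
      rw [← mul_sub, abs_mul, Real.cos_sub_cos, abs_mul, abs_mul]
      refine (mul_le_of_le_one_left (by positivity) (hσ n j)).trans ?_
      rw [show |(-2 : ℝ)| = 2 by norm_num]
      refine (mul_le_mul_of_nonneg_right (mul_le_of_le_one_right two_pos.le (abs_sin_le_one _))
        (abs_nonneg _)).trans (le_of_eq ?_)
      congr 3
      rw [zpow_sub₀ hb0.ne', zpow_natCast, zpow_natCast, inv_pow]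
      field_simp
      ring
    · intro M
      simp only [mul_pow, ← Finset.mul_sum]
      linarith [hsin n M]
  refine singular_of_second_moment l0 l1 (fun n y => g n y / μ n) one_pos (C := 2)
    (fun n => (gc n).div_const _) ?_ ?_ ?_
  · refine Filter.Eventually.of_forall fun n => le_of_eq ?_
    rw [integral_div]; exact (div_self (μpos n).ne').symm
  · refine Filter.Eventually.of_forall fun n => ?_
    simp_rw [div_pow]
    rw [integral_div, div_le_iff₀ (by have := μpos n; positivity)]
    have v := var n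
    have h1 : 1 / ((n : ℝ) + 1) ≤ 1 := by
      rw [div_le_one (by positivity)]; linarith [Nat.cast_nonneg (α := ℝ) n]
    have h2 : (T n * N n) ^ 2 ≤ μ n ^ 2 :=
      pow_le_pow_left₀ (mul_nonneg (hT n).le (Nat.cast_nonneg _)) (μge n) 2
    nlinarith [mul_le_mul_of_nonneg_right h1 (sq_nonneg (T n * N n)), μpos n]
  · have lim : Tendsto (fun n : ℕ => (2 * L + 4 * (b / (b - 1) ^ 2)) * (1 / ((n : ℝ) + 1)))
        atTop (𝓝 0) := by
      have := (tendsto_one_div_add_atTop_nhds_zero_nat (𝕜 := ℝ)).const_mul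
        (2 * L + 4 * (b / (b - 1) ^ 2))
      rwa [mul_zero] at this
    refine squeeze_zero (fun n => integral_nonneg fun y => sq_nonneg _) (fun n => ?_) lim
    simp_rw [div_pow]
    rw [integral_div, integral_Icc_eq_integral_Ioc,
      ← intervalIntegral.integral_of_le (by linarith : -L ≤ L),
      div_le_iff₀ (by have := μpos n; positivity)]
    refine (integral_trig_sq_le hb (hx n) hL (hσ n) (N n)).trans ?_
    have hK : 0 ≤ 2 * L + 4 * (b / (b - 1) ^ 2) := by positivity
    rw [mul_assoc]
    refine mul_le_mul_of_nonneg_left ?_ hK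
    have h2 : (T n * N n) ^ 2 ≤ μ n ^ 2 :=
      pow_le_pow_left₀ (mul_nonneg (hT n).le (Nat.cast_nonneg _)) (μge n) 2
    have hn1 : (1 : ℝ) ≤ N n := Nat.one_le_cast.mpr (hN n)
    calc (N n : ℝ) = (N n : ℝ) * 1 := (mul_one _).symm
      _ ≤ (N n : ℝ) * (1 / ((n : ℝ) + 1) * T n ^ 2 * (N n : ℝ)) :=
          mul_le_mul_of_nonneg_left (hbig n) (by positivity)
      _ = 1 / ((n : ℝ) + 1) * (T n * N n) ^ 2 := by ring
      _ ≤ _ := mul_le_mul_of_nonneg_left h2 (by positivity)

end Vale.Agent.P105
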