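import Vale.Agent.P105.Envelope

/-! The step `y ↦ y (beta^L - 1)`. -/

noncomputable section

open Real Finset

namespace Vale.Agent.P105

namespace StepAux

theorem beta_ge : (188 / 100 : ℝ) ≤ beta := by
  have h2 : (1414 / 1000 : ℝ) ≤ √2 := by
    rw [Real.le_sqrt (by norm_num) (by norm_num)]; norm_num
  have h3 : (135 / 100 : ℝ) ≤ √(z1 ^ 2 - 4) := by
    refine Real.le_sqrt_of_sq_le ?_
    unfold z1
    nlinarith
  unfold beta
  unfold z1 at h3 ⊢
  linarith

theorem beta_pos : 0 < beta := by linarith [beta_ge]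

theorem beta_ne : beta ≠ 0 := beta_pos.ne'

theorem rho_pos : 0 < rho := inv_pos.2 beta_pos

theorem rho_le : rho ≤ 532 / 1000 := by
  unfold rho
  rw [inv_le_iff_one_le_mul₀ beta_pos]
  linarith [beta_ge]

theorem rho_le_one : rho ≤ 1 := rho_le.trans (by norm_num)

theorem zpow_neg_eq (n : ℕ) : beta ^ (-(n : ℤ)) = rho ^ n := by
  simp [rho, inv_pow]

theorem succ_mul_rho_pow (E : ℕ) : ((E : ℝ) + 1) * rho ^ E ≤ 2 := by
  have hb : 1 + (E : ℝ) * (88 / 100) ≤ beta ^ E := by
    have h1 := one_add_mul_le_pow (a := beta - 1) (by linarith [beta_ge]) E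
    rw [add_sub_cancel] at h1
    have : (E : ℝ) * (88 / 100) ≤ E * (beta - 1) :=
      mul_le_mul_of_nonneg_left (by linarith [beta_ge]) (by positivity)
    linarith
  have hp : 0 < beta ^ E := pow_pos beta_pos E
  rw [rho, inv_pow, ← div_eq_mul_inv, div_le_iff₀ hp]
  have : (0 : ℝ) ≤ E := by positivity
  nlinarith

end StepAux

open StepAux

theorem orb_shift_sub (y : ℝ) (L : ℕ) (i : ℤ) :
    orb (y * (beta ^ L - 1)) i = orb y (i + L) - orb y i := by
  unfold orb
  rw [zpow_add₀ beta_ne, zpow_natCast]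
  ring

/-- For each index one of the two tangents of the step is small. -/
theorem Gadget.pair_small {y δ C Φ : ℝ} {E : ℕ} (h : Gadget y E δ C Φ) (L : ℕ) (hL : 4 * E ≤ L)
    (ε : ℝ) (hε1 : 4 * (W * rho ^ (L / 2) + δ) ≤ ε) (hε2 : 4 * rho ^ E ≤ ε) (hε3 : ε ≤ 1)
    (i : ℤ) : tau y (i + L) ≤ ε ∨ tau y i ≤ ε := by
  rcases le_or_gt (-((L / 2 : ℕ) : ℤ)) i with hi | hi
  · left
    obtain ⟨n, hn⟩ : ∃ n : ℕ, i + (L : ℤ) = n := ⟨(i + L).toNat, by omega⟩
    have hnL : L / 2 ≤ n := by omega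
    have hW : (0 : ℝ) ≤ W := by norm_num [W]
    have hpow : W * rho ^ n ≤ W * rho ^ (L / 2) :=
      mul_le_mul_of_nonneg_left (pow_le_pow_of_le_one rho_pos.le rho_le_one hnL) hW
    rw [hn]
    exact (h.tau_right_small n (by linarith)).trans (by linarith)
  · right
    have hb : beta ^ ((E : ℤ) + i) ≤ rho ^ E := by
      rw [← zpow_neg_eq]
      exact zpow_le_zpow_right₀ (by linarith [beta_ge]) (by omega)
    exact (h.tau_left_small i (by linarith)).trans (by linarith)

/-- Cosine of the shifted difference. -/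
theorem Gadget.cos_step {y δ C Φ : ℝ} {E : ℕ} (h : Gadget y E δ C Φ) (L : ℕ) (i : ℤ) :
    Real.cos (π * orb (y * (beta ^ L - 1)) i) =
      Real.cos (π * orb y (i + L)) * Real.cos (π * orb y i) *
        (1 + Real.tan (π * orb y (i + L)) * Real.tan (π * orb y i)) := by
  rw [orb_shift_sub, mul_sub, Real.cos_sub, Real.tan_eq_sin_div_cos, Real.tan_eq_sin_div_cos]
  field_simp [h.cos_ne (i + L), h.cos_ne i]

theorem neg_log_one_add_le {x : ℝ} (hx : |x| ≤ 1 / 2) : -Real.log |1 + x| ≤ 2 * |x| := by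
  obtain ⟨h1, h2⟩ := abs_le.1 hx
  have hpos : 0 < 1 + x := by linarith
  rw [abs_of_pos hpos]
  have hl := Real.one_sub_inv_le_log_of_pos hpos
  have he : 1 - (1 + x)⁻¹ = x / (1 + x) := by field_simp; ring
  have hb : -(2 * |x|) ≤ x / (1 + x) := by
    rw [le_div_iff₀ hpos]
    nlinarith [neg_abs_le x, abs_nonneg x]
  linarith [hl, he ▸ hb]

theorem Gadget.step_osc {y δ C Φ : ℝ} {E : ℕ} (h : Gadget y E δ C Φ) (L : ℕ) (δ' : ℝ)
    (hδ' : δ * (2 * |Real.sin (π * L * th)|) ≤ δ') :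
    ∃ w S φ : ℝ, |w| ≤ W ∧ 0 ≤ S ∧ S ≤ δ' ∧ ∀ i : ℕ, ∃ n : ℤ,
      y * (beta ^ L - 1) * beta ^ i + w * rho ^ i + S * Real.cos (om * i + φ) = n := by
  obtain ⟨w, S, φ, hw, hS, hSδ, hint⟩ := h.osc
  have hth : π * L * th = om * L / 2 := by
    unfold th; field_simp
  rw [hth] at hδ'
  set a := Real.sin (om * L / 2) with ha
  refine ⟨w * (rho ^ L - 1), S * (2 * |a|),
    if 0 ≤ a then φ + om * L / 2 + π / 2 else φ + om * L / 2 + π / 2 + π, ?_, by positivity,
    (mul_le_mul_of_nonneg_right hSδ (by positivity)).trans hδ', fun i => ?_⟩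
  · rw [abs_mul]
    refine le_trans (mul_le_of_le_one_right (abs_nonneg _) ?_) hw
    rw [abs_sub_le_iff]
    constructor <;> linarith [pow_le_one₀ rho_pos.le rho_le_one (n := L), pow_pos rho_pos L]
  · obtain ⟨n1, hn1⟩ := hint (i + L)
    obtain ⟨n0, hn0⟩ := hint i
    refine ⟨n1 - n0, ?_⟩
    push_cast at hn1 ⊢
    rw [pow_add, pow_add] at hn1
    have hd : S * (2 * |a|) * Real.cos (om * i + (if 0 ≤ a then φ + om * L / 2 + π / 2
          else φ + om * L / 2 + π / 2 + π)) =
        S * Real.cos (om * (i + L) + φ) - S * Real.cos (om * i + φ) := by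
      have hc : Real.cos (om * (i + L) + φ) - Real.cos (om * i + φ) =
          -2 * Real.sin (om * i + φ + om * L / 2) * a := by
        rw [Real.cos_sub_cos, ha]; congr 2 <;> congr 1 <;> ring
      rw [← mul_sub, hc]
      split_ifs with hsgn
      · rw [abs_of_nonneg hsgn, ← add_assoc, Real.cos_add_pi_div_two, ← add_assoc]; ring
      · rw [abs_of_neg (not_le.1 hsgn), ← add_assoc, Real.cos_add_pi, ← add_assoc,
          Real.cos_add_pi_div_two, ← add_assoc]; ring
    linear_combination hn1 - hn0 + hd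

theorem Gadget.step {y δ C Φ : ℝ} {E : ℕ} (h : Gadget y E δ C Φ) (hC : C ≤ 5) (hδ : δ ≤ 1)
    (L : ℕ) (hL : 4 * E ≤ L) (hL2 : 2 ≤ L) (δ' : ℝ)
    (hδ' : δ * (2 * |Real.sin (π * L * th)|) ≤ δ')
    (ε : ℝ) (hε1 : 4 * (W * rho ^ (L / 2) + δ) ≤ ε) (hε2 : 4 * rho ^ E ≤ ε) (hε3 : ε ≤ 1)
    (hCε : C * ε ≤ 1 / 2) :
    Gadget (y * (beta ^ L - 1)) (E + L) δ' ((C + ε) / (1 - C * ε))
      (2 * Φ + 100000 * (1 + δ ^ 2 * L + δ * E)) := by
  have hC0 : 0 ≤ C := le_trans (abs_nonneg _) (h.tan_le 0)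
  have hε0 : 0 ≤ ε := le_trans (by positivity [rho_pos.le]) hε2
  have hδ0 : 0 ≤ δ := by
    obtain ⟨w, S, φ, -, hS, hSδ, -⟩ := h.osc
    linarith
  have hprod : ∀ i : ℤ, |Real.tan (π * orb y (i + L)) * Real.tan (π * orb y i)| ≤ C * ε := by
    intro i
    rw [abs_mul]
    rcases h.pair_small L hL ε hε1 hε2 hε3 i with h1 | h1
    · rw [mul_comm C ε]
      exact mul_le_mul h1 (h.tan_le i) (abs_nonneg _) hε0
    · exact mul_le_mul (h.tan_le _) h1 (abs_nonneg _) hC0
  have hne : ∀ i : ℤ, Real.cos (π * orb (y * (beta ^ L - 1)) i) ≠ 0 := by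
    intro i
    rw [h.cos_step L i]
    refine mul_ne_zero (mul_ne_zero (h.cos_ne _) (h.cos_ne i)) ?_
    intro h0
    obtain ⟨h1, -⟩ := abs_le.1 ((hprod i).trans hCε)
    linarith
  have hbL : 2 ≤ beta ^ L := by
    calc (2 : ℝ) ≤ beta ^ 2 := by nlinarith [beta_ge]
      _ ≤ beta ^ L := pow_le_pow_right₀ (by linarith [beta_ge]) hL2
  refine ⟨h.step_osc L δ' hδ', ?_, ?_, hne, ?_, ?_⟩
  · rw [abs_mul, abs_of_pos (by linarith : (0 : ℝ) < beta ^ L - 1)]
    nlinarith [h.two_le, abs_nonneg y]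
  · rw [abs_mul, abs_of_pos (by linarith : (0 : ℝ) < beta ^ L - 1), pow_add]
    exact mul_le_mul h.le_pow (by linarith) (by linarith) (pow_nonneg beta_pos.le E)
  · intro i
    unfold tau
    set a := Real.tan (π * orb y (i + L)) with ha
    set b := Real.tan (π * orb y i) with hb
    have heq : Real.tan (π * orb (y * (beta ^ L - 1)) i) = (a - b) / (1 + a * b) := by
      rw [Real.tan_eq_sin_div_cos, h.cos_step L i, orb_shift_sub, mul_sub, Real.sin_sub,
        ← ha, ← hb]
      rw [ha, hb, Real.tan_eq_sin_div_cos, Real.tan_eq_sin_div_cos]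
      field_simp [h.cos_ne (i + L), h.cos_ne i]
    have hab : |a * b| ≤ C * ε := hprod i
    have hsum : |a - b| ≤ C + ε := by
      refine (abs_sub _ _).trans ?_
      rcases h.pair_small L hL ε hε1 hε2 hε3 i with h1 | h1
      · exact (add_comm (|a|) |b|).trans_le (add_le_add (h.tan_le i) h1)
      · exact add_le_add (h.tan_le _) h1
    obtain ⟨h1, -⟩ := abs_le.1 hab
    rw [heq, abs_div, abs_of_pos (by linarith : (0 : ℝ) < 1 + a * b)]
    exact div_le_div₀ (by linarith) hsum (by linarith) (by linarith)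
  · intro M
    have hterm : ∀ k ∈ range M, psi (y * (beta ^ L - 1)) (-(k : ℤ)) ≤
        psi y ((L : ℤ) - k) + psi y (-(k : ℤ)) +
          2 * (100 * (rho ^ E + δ) * tau y (-(k : ℤ)) + 100 * (3 / 4 : ℝ) ^ k) := by
      intro k _
      have hp := hprod (-(k : ℤ))
      have hidx : -(k : ℤ) + L = (L : ℤ) - k := by ring
      rw [hidx] at hp
      set t := Real.tan (π * orb y ((L : ℤ) - k)) * Real.tan (π * orb y (-(k : ℤ))) with ht
      have hlog : psi (y * (beta ^ L - 1)) (-(k : ℤ)) =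
          psi y ((L : ℤ) - k) + psi y (-(k : ℤ)) + -Real.log |1 + t| := by
        unfold psi
        rw [h.cos_step L, hidx, abs_mul, abs_mul, Real.log_mul, Real.log_mul]
        · ring
        · exact abs_ne_zero.2 (h.cos_ne _)
        · exact abs_ne_zero.2 (h.cos_ne _)
        · exact mul_ne_zero (abs_ne_zero.2 (h.cos_ne _)) (abs_ne_zero.2 (h.cos_ne _))
        · refine abs_ne_zero.2 fun h0 => ?_
          obtain ⟨h1, -⟩ := abs_le.1 (hp.trans hCε)
          linarith
      have hsmall : |t| ≤ 100 * (rho ^ E + δ) * tau y (-(k : ℤ)) + 100 * (3 / 4 : ℝ) ^ k := by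
        have hnn : 0 ≤ 100 * (rho ^ E + δ) * tau y (-(k : ℤ)) := by
          have := rho_pos.le
          unfold tau; positivity
        have hnn2 : (0 : ℝ) ≤ 100 * (3 / 4 : ℝ) ^ k := by positivity
        rw [ht, abs_mul]
        rcases le_or_gt k (L / 2) with hk | hk
        · have hn : ((L - k : ℕ) : ℤ) = (L : ℤ) - k := by omega
          have h1 : tau y ((L : ℤ) - k) ≤ 100 * (rho ^ E + δ) := by
            rw [← hn]
            refine (h.tau_right hC _).trans ?_
            have : rho ^ (L - k) ≤ rho ^ E :=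
              pow_le_pow_of_le_one rho_pos.le rho_le_one (by omega)
            linarith
          have := mul_le_mul_of_nonneg_right h1 (abs_nonneg (Real.tan (π * orb y (-(k : ℤ)))))
          unfold tau at this ⊢
          linarith
        · have h1 : tau y (-(k : ℤ)) ≤ 20 * (3 / 4 : ℝ) ^ k := by
            refine (h.tau_left hC _).trans (mul_le_mul_of_nonneg_left ?_ (by norm_num))
            have hn : (E : ℤ) + -(k : ℤ) = -((k - E : ℕ) : ℤ) := by omega
            rw [hn, zpow_neg_eq]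
            have hr : rho ≤ (3 / 4 : ℝ) ^ 2 := rho_le.trans (by norm_num)
            refine (pow_le_pow_left₀ rho_pos.le hr _).trans ?_
            rw [← pow_mul]
            exact pow_le_pow_of_le_one (by norm_num) (by norm_num) (by omega)
          have h2 : tau y ((L : ℤ) - k) ≤ 5 := (h.tan_le _).trans hC
          have := mul_le_mul h2 h1 (abs_nonneg _) (by norm_num)
          unfold tau at this hnn ⊢
          linarith
      rw [hlog]
      have := neg_log_one_add_le (hp.trans hCε)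
      linarith
    refine (Finset.sum_le_sum hterm).trans ?_
    simp only [Finset.sum_add_distrib, ← Finset.mul_sum]
    have hgeo : ∑ k ∈ range M, (3 / 4 : ℝ) ^ k ≤ 4 := by
      rw [geom_sum_eq (by norm_num)]
      rw [div_le_iff_of_neg (by norm_num)]
      linarith [pow_pos (by norm_num : (0 : ℝ) < 3 / 4) M]
    have hB : (rho ^ E + δ) * ∑ k ∈ range M, tau y (-(k : ℤ)) ≤ 30 * (2 + δ * E + δ) := by
      have h1 := mul_le_mul_of_nonneg_left (h.sum_tau_left hC M)
        (by linarith [pow_pos rho_pos E] : (0 : ℝ) ≤ rho ^ E + δ)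
      nlinarith [succ_mul_rho_pow E]
    have h1 := h.cost_shift hC L M
    have h2 := h.cost M
    have h3 : 0 ≤ δ ^ 2 * L := by positivity
    have h4 : 0 ≤ δ * E := by positivity
    linarith

end Vale.Agent.P105
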