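import Vale.Agent.P105.Interfaces
import Vale.Agent.P105.Step

/-!
P105: the tower of gadgets.

One level replaces `y` by `y * (beta ^ L - 1)` where `L` is the least multiple `≥ 4 E` of the least
`q ≥ 1` with `q th` within `δ ^ 2` of an integer. No further property of `th` is used: the least `q`
can only increase along the tower, so the multiplier grows at most like `5 ^ l`, which is negligible
against `δ ↦ δ ^ 3`.
-/

noncomputable section

open Real Finset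

namespace Vale.Agent.P105

namespace Tower

open StepAux

/-- `n * th` is within `d` of an integer. -/
def Near (n : ℕ) (d : ℝ) : Prop := ∃ p : ℤ, |(n : ℝ) * th - p| ≤ d

/-- Every near multiple has size at least `4 E / (k - 1)`. -/
def Spread (E : ℕ) (δ k : ℝ) : Prop :=
  ∀ n : ℕ, 1 ≤ n → Near n (δ ^ 2) → 4 * (E : ℝ) ≤ (k - 1) * n

theorem rho_nonneg : 0 ≤ rho := rho_pos.le

/-- The shift of one level. -/
theorem exists_shift {E : ℕ} {δ k : ℝ} (hE : 1 ≤ E) (hδ : 0 < δ) (hS : Spread E δ k) :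
    ∃ L : ℕ, 4 * E ≤ L ∧ (L : ℝ) ≤ 4 * E + 1 / δ ^ 2 + 1 ∧
      |Real.sin (π * L * th)| ≤ π * (k * δ ^ 2) ∧
      ∀ d : ℝ, 0 ≤ d → d ≤ δ → Spread (E + L) d (5 * k) := by
  classical
  set N : ℕ := ⌈1 / δ ^ 2⌉₊ with hNdef
  have hN1 : (1 / δ ^ 2 : ℝ) ≤ N := Nat.le_ceil _
  have hN2 : (N : ℝ) ≤ 1 / δ ^ 2 + 1 := (Nat.ceil_lt_add_one (by positivity)).le
  have hNpos : 0 < N := Nat.ceil_pos.mpr (by positivity)
  obtain ⟨j, hj0, hjN, hj⟩ := Real.exists_nat_abs_mul_sub_round_le th hNpos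
  have hjnear : Near j (δ ^ 2) := by
    refine ⟨round ((j : ℝ) * th), hj.trans ?_⟩
    rw [div_le_iff₀ (by positivity)]
    rw [div_le_iff₀ (by positivity)] at hN1
    nlinarith [sq_nonneg δ]
  have hex : ∃ n, 1 ≤ n ∧ Near n (δ ^ 2) := ⟨j, hj0, hjnear⟩
  set q := Nat.find hex with hqdef
  obtain ⟨hq1, p, hp⟩ := Nat.find_spec hex
  have hmin : ∀ n, 1 ≤ n → Near n (δ ^ 2) → q ≤ n := fun n h1 h2 => Nat.find_min' hex ⟨h1, h2⟩
  have hqN : (q : ℝ) ≤ 1 / δ ^ 2 + 1 :=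
    le_trans (by exact_mod_cast (hmin j hj0 hjnear).trans hjN) hN2
  set a : ℕ := ⌈(4 * E : ℝ) / q⌉₊ with hadef
  have hq0 : (0 : ℝ) < q := by exact_mod_cast hq1
  have ha1 : (4 * E : ℝ) / q ≤ a := Nat.le_ceil _
  have ha2 : (a : ℝ) < 4 * E / q + 1 := Nat.ceil_lt_add_one (by positivity)
  have hL1 : (4 * E : ℝ) ≤ (a * q : ℕ) := by
    push_cast
    rw [div_le_iff₀ hq0] at ha1
    linarith
  have hL2 : ((a * q : ℕ) : ℝ) ≤ 4 * E + q := by
    push_cast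
    have := mul_le_mul_of_nonneg_right ha2.le hq0.le
    rw [add_mul, div_mul_cancel₀ _ hq0.ne'] at this
    linarith
  have hqk : 4 * (E : ℝ) ≤ (k - 1) * q := hS q hq1 ⟨p, hp⟩
  have hak : (a : ℝ) ≤ k := by
    have : (4 * E : ℝ) / q ≤ k - 1 := by rw [div_le_iff₀ hq0]; linarith
    linarith
  refine ⟨a * q, by exact_mod_cast hL1, by linarith, ?_, ?_⟩
  · have harg : π * ((a * q : ℕ) : ℝ) * th
        = π * ((a : ℝ) * ((q : ℝ) * th - p)) + (((a : ℤ) * p : ℤ) : ℝ) * π := by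
      push_cast; ring
    rw [harg, Real.sin_add_int_mul_pi, abs_mul]
    have h1 : |((-1 : ℝ) ^ ((a : ℤ) * p))| = 1 := by rw [abs_zpow]; simp
    rw [h1, one_mul]
    refine Real.abs_sin_le_abs.trans ?_
    rw [abs_mul, abs_mul, abs_of_pos Real.pi_pos, abs_of_nonneg (Nat.cast_nonneg a : (0 : ℝ) ≤ a)]
    have : (a : ℝ) * |(q : ℝ) * th - p| ≤ k * δ ^ 2 :=
      mul_le_mul hak hp (abs_nonneg _) ((Nat.cast_nonneg a).trans hak)
    exact mul_le_mul_of_nonneg_left this Real.pi_pos.le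
  · intro d hd hdδ n hn ⟨p', hp'⟩
    have hnear : Near n (δ ^ 2) := ⟨p', hp'.trans (pow_le_pow_left₀ hd hdδ 2)⟩
    have h4 := hS n hn hnear
    have hqn : (q : ℝ) ≤ n := by exact_mod_cast hmin n hn hnear
    push_cast at hL2 ⊢
    nlinarith

/-- The error parameter of one level. -/
def eps (δ : ℝ) (E : ℕ) : ℝ := 4 * δ + 17 * rho ^ E

theorem eps_nonneg {δ : ℝ} (hδ : 0 ≤ δ) (E : ℕ) : 0 ≤ eps δ E := by
  have := pow_nonneg rho_nonneg E
  unfold eps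
  linarith

/-- One application of `Gadget.step`. -/
theorem advance {y δ C Φ k : ℝ} {E : ℕ} (h : Gadget y E δ C Φ) (hC : C ≤ 5) (hδ0 : 0 < δ)
    (hδ1 : δ ≤ 1) (hE : 1 ≤ E) (hS : Spread E δ k) (hε : eps δ E ≤ 1)
    (hCε : C * eps δ E ≤ 1 / 2) (hk : 0 < k) (hkδ : 2 * π * k * δ ^ 2 ≤ 1) :
    ∃ y' : ℝ, ∃ E' : ℕ, ∃ Φ' : ℝ,
      Gadget y' E' (2 * π * k * δ ^ 3) ((C + eps δ E) / (1 - C * eps δ E)) Φ' ∧
      5 * E ≤ E' ∧ (E' : ℝ) ≤ 5 * E + 1 / δ ^ 2 + 1 ∧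
      Spread E' (2 * π * k * δ ^ 3) (5 * k) ∧
      Φ' ≤ 2 * Φ + 100000 * (1 + (4 * (δ ^ 2 * E) + 1 + δ ^ 2) + δ * E) := by
  obtain ⟨L, hL1, hL2, hsin, hspread⟩ := exists_shift hE hδ0 hS
  have hρ0 := rho_nonneg
  have hρ1 : rho ≤ 1 := rho_le.trans (by norm_num)
  have hd' : 2 * π * k * δ ^ 3 ≤ δ := by
    calc 2 * π * k * δ ^ 3 = (2 * π * k * δ ^ 2) * δ := by ring
      _ ≤ 1 * δ := mul_le_mul_of_nonneg_right hkδ hδ0.le
      _ = δ := one_mul δ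
  have hpow : rho ^ (L / 2) ≤ rho ^ E := pow_le_pow_of_le_one hρ0 hρ1 (by omega)
  have hg := h.step hC hδ1 L hL1 (by omega) (2 * π * k * δ ^ 3)
    (by
      calc δ * (2 * |Real.sin (π * L * th)|) ≤ δ * (2 * (π * (k * δ ^ 2))) := by gcongr
        _ = _ := by ring)
    (eps δ E)
    (by
      have := pow_nonneg hρ0 E
      unfold eps W
      linarith)
    (by
      have := pow_nonneg hρ0 E
      unfold eps
      linarith)
    hε hCε
  refine ⟨_, _, _, hg, by omega, by push_cast; linarith, hspread _ (by positivity) hd', ?_⟩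
  have hδL : δ ^ 2 * (L : ℝ) ≤ 4 * (δ ^ 2 * E) + 1 + δ ^ 2 := by
    refine (mul_le_mul_of_nonneg_left hL2 (sq_nonneg δ)).trans_eq ?_
    field_simp
  linarith

/-- The invariant of the tower. -/
structure Lev (k y δ C Φ : ℝ) (E : ℕ) : Prop where
  gad : Gadget y E δ C Φ
  hk : 1 ≤ k
  hE : 1 ≤ E
  pos : 0 < δ
  small : δ ≤ 1 / 100
  hC : C + 65 * eps δ E ≤ 5
  spread : Spread E δ k
  hb : 15 * (k * δ ^ 2) ≤ 1 / 20
  hu : δ ^ 2 * E ≤ 1 / 10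
  hx : δ * E ≤ 30
  hkd : k * δ ≤ 2

theorem Lev.next {k y δ C Φ : ℝ} {E : ℕ} (h : Lev k y δ C Φ E) :
    ∃ y' δ' C' Φ' : ℝ, ∃ E' : ℕ, Lev (5 * k) y' δ' C' Φ' E' ∧
      15 * (5 * k * δ' ^ 2) ≤ (15 * (k * δ ^ 2)) ^ 3 ∧
      Φ' ≤ 2 * Φ + 3400000 ∧ δ' * ((E' : ℝ) + 1) ≤ 14 * (k * δ) := by
  have hπ0 := Real.pi_pos
  have hπ : π < 3.1416 := Real.pi_lt_d4
  have hρ0 := rho_nonneg
  have hρ1 : rho ≤ 1 := rho_le.trans (by norm_num)
  have hδ0 := h.pos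
  have hk0 : (0 : ℝ) < k := lt_of_lt_of_le one_pos h.hk
  set a := k * δ ^ 2 with hadef
  have ha0 : 0 ≤ a := by positivity
  have ha : a ≤ 1 / 300 := by have := h.hb; linarith
  set e := eps δ E with hedef
  have he0 : 0 ≤ e := eps_nonneg hδ0.le E
  have hC0 : 0 ≤ C := le_trans (abs_nonneg _) (h.gad.tan_le 0)
  have hCC := h.hC
  rw [← hedef] at hCC
  have he1 : e ≤ 1 / 13 := by linarith
  have hC5 : C ≤ 5 := by linarith
  have hCe : C * e ≤ 1 / 2 := by nlinarith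
  have h2a : 2 * π * k * δ ^ 2 ≤ 3 / 100 := by
    calc 2 * π * k * δ ^ 2 = 2 * π * a := by rw [hadef]; ring
      _ ≤ 2 * 3.1416 * (1 / 300) := by gcongr
      _ ≤ 3 / 100 := by norm_num
  obtain ⟨y', E', Φ', hg, hE1, hE2, hsp, hΦ⟩ := advance h.gad hC5 hδ0
    (h.small.trans (by norm_num)) h.hE h.spread (by linarith) hCe hk0 (by linarith)
  set δ' := 2 * π * k * δ ^ 3 with hδ'def
  have hδ'0 : 0 < δ' := by positivity
  have hδ'le : δ' ≤ 3 / 100 * δ := by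
    calc δ' = (2 * π * k * δ ^ 2) * δ := by rw [hδ'def]; ring
      _ ≤ 3 / 100 * δ := mul_le_mul_of_nonneg_right h2a hδ0.le
  have hkd' : 5 * k * δ' ≤ k * δ := by
    calc 5 * k * δ' = 5 * (2 * π * k * δ ^ 2) * (k * δ) := by rw [hδ'def]; ring
      _ ≤ 5 * (3 / 100) * (k * δ) := by gcongr
      _ ≤ k * δ := by nlinarith [mul_pos hk0 hδ0]
  have hb3 : 15 * (5 * k * δ' ^ 2) ≤ (15 * a) ^ 3 := by
    calc 15 * (5 * k * δ' ^ 2) = 300 * π ^ 2 * (k * δ ^ 2) ^ 3 := by rw [hδ'def]; ring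
      _ ≤ 300 * 3.1416 ^ 2 * (k * δ ^ 2) ^ 3 := by gcongr
      _ ≤ (15 * a) ^ 3 := by
        rw [← hadef, mul_pow (15 : ℝ) a 3]
        refine mul_le_mul_of_nonneg_right ?_ (pow_nonneg ha0 3)
        norm_num
  have hb3' : (15 * a) ^ 3 ≤ 1 / 20 :=
    (pow_le_of_le_one (by positivity) (by linarith) (by norm_num)).trans (by have := h.hb; linarith)
  have hsplit : δ ^ 2 * (E' : ℝ) ≤ 5 * (δ ^ 2 * E) + 1 + δ ^ 2 := by
    refine (mul_le_mul_of_nonneg_left hE2 (sq_nonneg δ)).trans_eq ?_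
    field_simp
  have hδsq : δ ^ 2 ≤ 1 / 10000 := by
    calc δ ^ 2 ≤ (1 / 100) ^ 2 := pow_le_pow_left₀ hδ0.le h.small 2
      _ = 1 / 10000 := by norm_num
  have hsplit' : δ ^ 2 * (E' : ℝ) ≤ 2 := by have := h.hu; linarith
  have hxE : δ' * (E' : ℝ) ≤ 13 * (k * δ) := by
    calc δ' * (E' : ℝ) = 2 * π * (k * δ) * (δ ^ 2 * E') := by rw [hδ'def]; ring
      _ ≤ 2 * 3.1416 * (k * δ) * 2 := by gcongr
      _ ≤ 13 * (k * δ) := by nlinarith [mul_pos hk0 hδ0]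
  have hu' : δ' ^ 2 * (E' : ℝ) ≤ 1 / 10 := by
    calc δ' ^ 2 * (E' : ℝ) = δ' * (δ' * E') := by ring
      _ ≤ (3 / 100 * (1 / 100)) * (13 * 2) := by
          refine mul_le_mul (hδ'le.trans ?_) (hxE.trans ?_) (by positivity) (by norm_num)
          · exact mul_le_mul_of_nonneg_left h.small (by norm_num)
          · exact mul_le_mul_of_nonneg_left h.hkd (by norm_num)
      _ ≤ 1 / 10 := by norm_num
  have hC' : (C + e) / (1 - C * e) ≤ C + 52 * e := by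
    rw [div_le_iff₀ (by linarith)]
    nlinarith [mul_le_mul hC5 hC5 hC0 (by norm_num), mul_nonneg he0 he0]
  have he' : eps δ' E' ≤ e / 5 := by
    have hp : rho ^ E' ≤ rho ^ E * rho ^ 4 := by
      rw [← pow_add]
      exact pow_le_pow_of_le_one hρ0 hρ1 (by have := h.hE; omega)
    have h4 : rho ^ 4 ≤ 1 / 5 := (pow_le_pow_left₀ hρ0 rho_le 4).trans (by norm_num)
    have := mul_le_mul_of_nonneg_left h4 (pow_nonneg hρ0 E)
    rw [hedef]
    unfold eps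
    linarith
  refine ⟨y', δ', (C + e) / (1 - C * e), Φ', E', ⟨hg, by linarith [h.hk], by have := h.hE; omega, hδ'0,
    by linarith [h.small], by linarith, hsp, by linarith, hu', ?_, by linarith [h.hkd]⟩,
    hb3, ?_, ?_⟩
  · linarith [h.hkd, hxE]
  · have := h.hu; have := h.hx; linarith
  · have hkle : δ ≤ k * δ := le_mul_of_one_le_left hδ0.le h.hk
    rw [mul_add]
    linarith

theorem first_level {y Φ : ℝ} (h : Gadget y 20 (17 / 1000) (16 / 5) Φ) :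
    ∃ y' δ' C' Φ' : ℝ, ∃ E' : ℕ, Lev 405 y' δ' C' Φ' E' := by
  have hπ : π < 3.1416 := Real.pi_lt_d4
  have hπ0 := Real.pi_pos
  have hρ0 := rho_nonneg
  have hρ20 : rho ^ 20 ≤ 1 / 100000 := (pow_le_pow_left₀ hρ0 rho_le 20).trans (by norm_num)
  have hρ20' := pow_nonneg hρ0 20
  have hS : Spread 20 (17 / 1000) 81 := by
    intro n hn _
    have : (1 : ℝ) ≤ n := by exact_mod_cast hn
    norm_num
    linarith
  set e := eps (17 / 1000) 20 with hedef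
  have he : e ≤ 682 / 10000 := by rw [hedef]; unfold eps; linarith
  have he0 : 0 ≤ e := eps_nonneg (by norm_num) 20
  obtain ⟨y', E', Φ', hg, hE1, hE2, hsp, -⟩ := advance h (by norm_num) (by norm_num) (by norm_num)
    (by norm_num) hS (by linarith) (by linarith) (by norm_num) (by nlinarith)
  set δ' := 2 * π * 81 * (17 / 1000 : ℝ) ^ 3 with hδ'def
  have hd0 : 0 < δ' := by positivity
  have hd : δ' ≤ 250051 / 100000000 := by rw [hδ'def]; linarith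
  have hE' : (E' : ℝ) ≤ 3570 := hE2.trans (by norm_num)
  have hd2 : δ' ^ 2 ≤ (250051 / 100000000) ^ 2 := pow_le_pow_left₀ hd0.le hd 2
  have hC1 : (16 / 5 + e) / (1 - 16 / 5 * e) ≤ 4185 / 1000 := by
    rw [div_le_iff₀ (by linarith)]; linarith
  have he' : eps δ' E' ≤ 11 / 1000 := by
    have : rho ^ E' ≤ rho ^ 20 :=
      pow_le_pow_of_le_one hρ0 (rho_le.trans (by norm_num)) (by omega)
    unfold eps
    linarith
  refine ⟨y', δ', _, Φ', E', hg, by norm_num, by omega, hd0, by linarith, by linarith, ?_,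
    by linarith, ?_, ?_, by linarith⟩
  · have : (5 : ℝ) * 81 = 405 := by norm_num
    rwa [this] at hsp
  · calc δ' ^ 2 * (E' : ℝ) ≤ (250051 / 100000000) ^ 2 * 3570 := by gcongr
      _ ≤ 1 / 10 := by norm_num
  · calc δ' * (E' : ℝ) ≤ (250051 / 100000000) * 3570 := by gcongr
      _ ≤ 30 := by norm_num

theorem levels {y₀ δ₀ C₀ Φ₀ : ℝ} {E₀ : ℕ} (h : Lev 405 y₀ δ₀ C₀ Φ₀ E₀) (m : ℕ) :
    ∃ y δ C Φ : ℝ, ∃ E : ℕ, Lev (405 * 5 ^ m) y δ C Φ E ∧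
      15 * (405 * 5 ^ m * δ ^ 2) ≤ (1 / 20 : ℝ) ^ 3 ^ m ∧
      Φ + 3400000 ≤ 2 ^ m * (Φ₀ + 3400000) := by
  induction m with
  | zero =>
    refine ⟨y₀, δ₀, C₀, Φ₀, E₀, by simpa using h, ?_, by simp⟩
    simpa using h.hb
  | succ m ih =>
    obtain ⟨y, δ, C, Φ, E, hL, hb, hΦ⟩ := ih
    obtain ⟨y', δ', C', Φ', E', hL', hb', hΦ', -⟩ := hL.next
    refine ⟨y', δ', C', Φ', E', ?_, ?_, ?_⟩
    · rwa [show (405 : ℝ) * 5 ^ (m + 1) = 5 * (405 * 5 ^ m) by ring]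
    · calc 15 * (405 * 5 ^ (m + 1) * δ' ^ 2) = 15 * (5 * (405 * 5 ^ m) * δ' ^ 2) := by ring
        _ ≤ _ := hb'
        _ ≤ ((1 / 20 : ℝ) ^ 3 ^ m) ^ 3 := by
            refine pow_le_pow_left₀ ?_ hb 3
            positivity
        _ = _ := by rw [← pow_mul, ← pow_succ]
    · calc Φ' + 3400000 ≤ 2 * (Φ + 3400000) := by linarith
        _ ≤ 2 * (2 ^ m * (Φ₀ + 3400000)) := by linarith
        _ = _ := by ring

theorem eventually_small (A B η : ℝ) (hη : 0 < η) :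
    ∃ m : ℕ, B * (5 : ℝ) ^ m * (1 / 20 : ℝ) ^ 3 ^ m * Real.exp (A * 2 ^ m) < η := by
  have h32 : Filter.Tendsto (fun m : ℕ => ((3 : ℝ) / 2) ^ m) Filter.atTop Filter.atTop :=
    tendsto_pow_atTop_atTop_of_one_lt (by norm_num)
  have hgeo : Filter.Tendsto (fun m : ℕ => |B| * Real.exp (-1) ^ m) Filter.atTop (nhds 0) := by
    simpa using (tendsto_pow_atTop_nhds_zero_of_lt_one (Real.exp_pos _).le
      (Real.exp_lt_one_iff.mpr (by norm_num : (-1 : ℝ) < 0))).const_mul |B|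
  obtain ⟨m, hm1, hm2⟩ := ((h32.eventually (Filter.eventually_ge_atTop (|A| + 3))).and
    (hgeo.eventually (eventually_lt_nhds hη))).exists
  refine ⟨m, lt_of_le_of_lt ?_ hm2⟩
  rw [mul_assoc, mul_assoc]
  refine mul_le_mul (le_abs_self B) ?_ (by positivity) (abs_nonneg B)
  rw [← Real.exp_nat_mul]
  have h5 : (5 : ℝ) ≤ Real.exp 2 := by
    have := Real.quadratic_le_exp_of_nonneg (show (0 : ℝ) ≤ 2 by norm_num)
    linarith
  have h20 : (1 / 20 : ℝ) ≤ Real.exp (-1) := by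
    rw [Real.exp_neg, one_div, inv_le_inv₀ (by norm_num) (Real.exp_pos _)]
    have := Real.exp_one_lt_d9
    linarith
  have hm : (m : ℝ) ≤ 2 ^ m := by exact_mod_cast (Nat.lt_two_pow_self (n := m)).le
  have hA : A * 2 ^ m ≤ |A| * 2 ^ m := mul_le_mul_of_nonneg_right (le_abs_self A) (by positivity)
  have h3 : (|A| + 3) * 2 ^ m ≤ (3 : ℝ) ^ m := by
    rw [div_pow, le_div_iff₀ (by positivity)] at hm1
    exact hm1
  calc (5 : ℝ) ^ m * ((1 / 20 : ℝ) ^ 3 ^ m * Real.exp (A * 2 ^ m))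
      ≤ Real.exp 2 ^ m * (Real.exp (-1) ^ 3 ^ m * Real.exp (A * 2 ^ m)) := by gcongr
    _ = Real.exp (m * 2 + ((3 ^ m : ℕ) * (-1) + A * 2 ^ m)) := by
        rw [Real.exp_add, Real.exp_add, Real.exp_nat_mul, Real.exp_nat_mul]
    _ ≤ Real.exp (m * (-1)) := by
        refine Real.exp_le_exp.mpr ?_
        push_cast
        linarith

theorem small_of_base {y Φ : ℝ} (h : Gadget y 20 (17 / 1000) (16 / 5) Φ) : SmallGadgets := by
  intro η hη
  obtain ⟨y₀, δ₀, C₀, Φ₀, E₀, h₀⟩ := first_level h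
  obtain ⟨m, hm⟩ := eventually_small (8 * (Φ₀ + 3400000)) 5292 (η ^ 2) (by positivity)
  obtain ⟨y', δ, C, Φ', E, hL, hb, hΦ⟩ := levels h₀ m
  obtain ⟨y₁, δ₁, C₁, Φ₁, E₁, hL₁, -, hΦ₁, hd⟩ := hL.next
  refine ⟨y₁, E₁, δ₁, C₁, Φ₁, hL₁.gad, ?_, hL₁.pos, hL₁.small.trans (by norm_num), ?_⟩
  · have := hL₁.hC
    have := eps_nonneg hL₁.pos.le E₁
    linarith
  · set K : ℝ := 405 * 5 ^ m with hK
    have hsq : (δ₁ * ((E₁ : ℝ) + 1) * Real.exp (2 * Φ₁)) ^ 2 ≤ η ^ 2 := by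
      refine le_trans ?_ hm.le
      have hΦ2 : 4 * Φ₁ ≤ 8 * (Φ₀ + 3400000) * 2 ^ m := by linarith
      have hδ1 : 0 ≤ δ₁ := hL₁.pos.le
      calc (δ₁ * ((E₁ : ℝ) + 1) * Real.exp (2 * Φ₁)) ^ 2
          = (δ₁ * ((E₁ : ℝ) + 1)) ^ 2 * Real.exp (4 * Φ₁) := by
            rw [mul_pow, ← Real.exp_nat_mul]; push_cast; ring_nf
        _ ≤ (14 * (K * δ)) ^ 2 * Real.exp (8 * (Φ₀ + 3400000) * 2 ^ m) := by gcongr
        _ = 14 ^ 2 * 405 / 15 * 5 ^ m * (15 * (K * δ ^ 2))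
              * Real.exp (8 * (Φ₀ + 3400000) * 2 ^ m) := by rw [hK]; ring
        _ ≤ 14 ^ 2 * 405 / 15 * 5 ^ m * (1 / 20 : ℝ) ^ 3 ^ m
              * Real.exp (8 * (Φ₀ + 3400000) * 2 ^ m) := by gcongr
        _ = _ := by norm_num
    exact (sq_le_sq₀ (by have := hL₁.pos; positivity) hη.le).1 hsq

end Tower

end Vale.Agent.P105
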